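import Vale.Agent.P037.Defs

/-!
The pattern `pat` and the matrices `mat M` of the counterexample to polynomial ordered
binary matrix removal.

Row and column elements are pairs `(class, a)` with `a : Fin (2 ^ M)`.
-/

namespace Vale.Agent.P037

/-- Classes of rows and of columns. -/
inductive Cls (M : ℕ) where
  | anc (j : Fin 56)
  | du (r : Fin 7)
  | ex (i : Fin (M + 2)) (s : Fin 2)
  | par (i : Fin (M + 2)) (s : Fin 2)
  | head (i : Fin (M + 1))
  | leaf
  | tail (i : Fin (M + 1))
  | sink
  | top
  deriving DecidableEq, Fintype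

/-- Elements indexing rows, and also columns. -/
abbrev El (M : ℕ) := Cls M × Fin (2 ^ M)

variable {M : ℕ}

/-- The anchor pattern. -/
def anchor (i j : ℕ) : Bool := decide (i % 4 ≠ j % 4)

/-- Anchor vector of a kind (`0`, `1`: marker kinds; `2`: tree kind). -/
def sig (kind j : ℕ) : Bool := decide (kind < 2 ∧ j = kind)

/-- Kinds of the seven row roles. -/
def roleR : Fin 7 → ℕ := ![0, 2, 2, 2, 0, 1, 2]

/-- Kinds of the seven column roles. -/
def roleC : Fin 7 → ℕ := ![0, 1, 2, 1, 2, 2, 2]

/-- The two rules placed on the diagonal. -/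
def core : Fin 7 → Fin 7 → Bool :=
  ![![true,  true,  true,  false, false, false, false],
    ![true,  false, true,  false, false, false, false],
    ![false, true,  false, false, false, false, false],
    ![true,  false, true,  false, false, false, false],
    ![false, false, false, true,  true,  false, true],
    ![false, false, false, true,  false, true,  false],
    ![false, false, false, true,  true,  false, true]]

/-- The forbidden `63 × 63` pattern. -/
def pat (i j : Fin 63) : Bool :=
  if hi : i.val < 56 then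
    if hj : j.val < 56 then anchor i j else sig (roleC ⟨j.val - 56, by omega⟩) i
  else
    if hj : j.val < 56 then sig (roleR ⟨i.val - 56, by omega⟩) j
    else core ⟨i.val - 56, by omega⟩ ⟨j.val - 56, by omega⟩

namespace Cls

/-- Row zone. -/
def zoneR : Cls M → ℕ
  | anc j => j
  | du r => if r.val < 4 then 56 + r else 61 + r
  | ex _ _ => 60
  | par _ _ => 61
  | head _ => 62
  | leaf => 62
  | tail _ => 62
  | sink => 63
  | top => 64

/-- Column zone. -/
def zoneC : Cls M → ℕ
  | anc j => j
  | du r => if r.val < 3 then 56 + r else 62 + r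
  | ex _ _ => 60
  | par _ _ => 61
  | head _ => 62
  | leaf => 62
  | tail _ => 62
  | sink => 63
  | top => 64

/-- Level of a tree class. -/
def lev : Cls M → ℕ
  | head i => i
  | tail i => i
  | leaf => M + 1
  | top => M + 1
  | sink => M + 2
  | _ => 0

/-- Secondary position inside the tree zone. -/
def sub : Cls M → ℕ
  | head i => i
  | tail i => 2 * M + 3 - i
  | _ => M + 1

/-- Kind of a class used as a row class. -/
def kindR : Cls M → ℕ
  | du r => roleR r
  | ex _ _ => 0
  | par _ _ => 1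
  | _ => 2

/-- Kind of a class used as a column class. -/
def kindC : Cls M → ℕ
  | du r => roleC r
  | ex _ _ => 0
  | par _ _ => 1
  | _ => 2

/-- Tree classes. -/
def isTree : Cls M → Bool
  | head _ => true
  | tail _ => true
  | leaf => true
  | sink => true
  | top => true
  | _ => false

/-- Classes whose representative follows the chosen leaf. -/
def isPath : Cls M → Bool
  | head i => decide (i.val ≠ 0)
  | tail i => decide (i.val ≠ 0)
  | leaf => true
  | _ => false

end Cls

/-- The ancestor at level `i` of the leaf `a`. -/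
def node (M i a : ℕ) : ℕ := a / 2 ^ (M - i)

/-- The parent of the ancestor at level `i` of the leaf `a`. -/
def parent (M i a : ℕ) : ℕ := a / 2 ^ (M + 1 - i)

/-- The side of the ancestor at level `i` of the leaf `a` inside its parent. -/
def side (M i a : ℕ) : ℕ := if i ≤ M then node M i a % 2 else 0

/-- Side of a tree element. -/
def elSide (x : El M) : ℕ := side M x.1.lev x.2.val

/-- Position inside the tree zone. -/
def coord : El M → ℕ
  | (.head i, a) => node M i a * 2 ^ (M - i.val)
  | (.tail i, a) => node M i a * 2 ^ (M - i.val) + (2 ^ (M - i.val) - 1)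
  | (_, a) => a

/-- The relation between tree rows and tree columns. -/
def Rel (x y : El M) : Prop :=
  (x.1.lev = y.1.lev ∧
      ((x.1.lev ≤ M ∧ parent M x.1.lev x.2 = parent M x.1.lev y.2) ∨
        (x.1.lev = M + 1 ∧ x.1 = Cls.top))) ∨
    (x.1.lev = y.1.lev + 1 ∧ x.1.lev ≤ M + 1 ∧ x.1 ≠ Cls.top ∧
      node M y.1.lev x.2 = node M y.1.lev y.2)

instance (x y : El M) : Decidable (Rel x y) := by
  unfold Rel; infer_instance

/-- The matrix of the construction. -/
def mat (x y : El M) : Bool :=
  match x.1, y.1 with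
  | .anc i, .anc j => anchor i j
  | .anc i, q => sig q.kindC i
  | p, .anc j => sig p.kindR j
  | .du r, .du s => if (r.val < 4 ↔ s.val < 3) then core r s else true
  | .du _, _ => false
  | _, .du _ => false
  | .ex i s, .ex j t => decide (i = j ∧ s = t)
  | .ex i s, .par j t => decide (i = j ∧ s = t)
  | .par i s, .ex j t => decide (i = j ∧ s = t)
  | .par i s, .par j t => decide (i = j ∧ s = t)
  | .ex i s, q => decide (q.lev = i.val ∧ side M q.lev y.2 = s.val)
  | .par i _, q => decide (q.lev = i.val + 1)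
  | p, .ex i s => decide (p.lev = i.val ∧ side M p.lev x.2 = s.val)
  | p, .par i _ => decide (p.lev = i.val + 1)
  | _, _ => decide (Rel x y)

/-- An arbitrary numbering, used to break ties. -/
noncomputable def tie (x : El M) : ℕ := (Fintype.equivFin (El M) x).val

/-- Row position key. -/
noncomputable def keyR (x : El M) : ℕ ×ₗ (ℕ ×ₗ (ℕ ×ₗ ℕ)) :=
  toLex (x.1.zoneR, toLex (coord x, toLex (x.1.sub, tie x)))

/-- Column position key. -/
noncomputable def keyC (x : El M) : ℕ ×ₗ (ℕ ×ₗ (ℕ ×ₗ ℕ)) :=
  toLex (x.1.zoneC, toLex (coord x, toLex (x.1.sub, tie x)))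

theorem tie_inj : Function.Injective (tie (M := M)) := by
  intro x y h
  exact (Fintype.equivFin (El M)).injective (Fin.ext h)

theorem keyR_inj : Function.Injective (keyR (M := M)) := by
  intro x y h
  simp only [keyR, toLex_inj, Prod.mk.injEq] at h
  exact tie_inj h.2.2.2

theorem keyC_inj : Function.Injective (keyC (M := M)) := by
  intro x y h
  simp only [keyC, toLex_inj, Prod.mk.injEq] at h
  exact tie_inj h.2.2.2

theorem keyR_le_zone {x y : El M} (h : keyR x ≤ keyR y) : x.1.zoneR ≤ y.1.zoneR := by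
  simp only [keyR, Prod.Lex.toLex_le_toLex] at h
  omega

theorem keyC_le_zone {x y : El M} (h : keyC x ≤ keyC y) : x.1.zoneC ≤ y.1.zoneC := by
  simp only [keyC, Prod.Lex.toLex_le_toLex] at h
  omega

theorem keyR_le_coord {x y : El M} (h : keyR x ≤ keyR y) (hz : x.1.zoneR = y.1.zoneR) :
    coord x ≤ coord y := by
  simp only [keyR, Prod.Lex.toLex_le_toLex, Prod.Lex.toLex_lt_toLex] at h
  omega

theorem keyC_le_coord {x y : El M} (h : keyC x ≤ keyC y) (hz : x.1.zoneC = y.1.zoneC) :
    coord x ≤ coord y := by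
  simp only [keyC, Prod.Lex.toLex_le_toLex, Prod.Lex.toLex_lt_toLex] at h
  omega

theorem keyR_lt_of_zone {x y : El M} (h : x.1.zoneR < y.1.zoneR) : keyR x < keyR y := by
  simp only [keyR, Prod.Lex.toLex_lt_toLex]
  exact Or.inl h

theorem keyC_lt_of_zone {x y : El M} (h : x.1.zoneC < y.1.zoneC) : keyC x < keyC y := by
  simp only [keyC, Prod.Lex.toLex_lt_toLex]
  exact Or.inl h

theorem keyR_lt_of_pos {x y : El M} (hz : x.1.zoneR = y.1.zoneR) (hc : coord x ≤ coord y)
    (hs : x.1.sub < y.1.sub) : keyR x < keyR y := by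
  simp only [keyR, Prod.Lex.toLex_lt_toLex]
  rcases hc.lt_or_eq with hc | hc
  · exact Or.inr ⟨hz, Or.inl hc⟩
  · exact Or.inr ⟨hz, Or.inr ⟨hc, Or.inl hs⟩⟩

theorem keyC_lt_of_pos {x y : El M} (hz : x.1.zoneC = y.1.zoneC) (hc : coord x ≤ coord y)
    (hs : x.1.sub < y.1.sub) : keyC x < keyC y := by
  simp only [keyC, Prod.Lex.toLex_lt_toLex]
  rcases hc.lt_or_eq with hc | hc
  · exact Or.inr ⟨hz, Or.inl hc⟩
  · exact Or.inr ⟨hz, Or.inr ⟨hc, Or.inl hs⟩⟩

/-! ### Dyadic intervals -/

theorem node_mono (i : ℕ) {a b : ℕ} (h : a ≤ b) : node M i a ≤ node M i b :=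
  Nat.div_le_div_right h

theorem node_zero {a : ℕ} (h : a < 2 ^ M) : node M 0 a = 0 := by
  simp [node, Nat.div_eq_of_lt h]

theorem parent_succ (i a : ℕ) : parent M (i + 1) a = node M i a := by
  unfold parent node
  rw [show M + 1 - (i + 1) = M - i by omega]

theorem node_eq_parent (i a : ℕ) (hi : i ≤ M) :
    node M i a = 2 * parent M i a + node M i a % 2 := by
  have : parent M i a = node M i a / 2 := by
    unfold parent node
    rw [Nat.div_div_eq_div_mul, ← pow_succ, show M - i + 1 = M + 1 - i by omega]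
  rw [this]; omega

theorem node_coarsen {i L a b : ℕ} (hiL : i ≤ L) (h : node M L a = node M L b) :
    node M i a = node M i b := by
  have e : (2 : ℕ) ^ (M - i) = 2 ^ (M - L) * 2 ^ (L - i - (L - M)) := by
    rw [← pow_add]; congr 1; omega
  unfold node at *
  rw [e, ← Nat.div_div_eq_div_mul, ← Nat.div_div_eq_div_mul, h]

theorem node_coord_self (x : El M) : node M x.1.lev (coord x) = node M x.1.lev x.2 := by
  obtain ⟨p, a⟩ := x
  cases p <;> simp only [coord, Cls.lev]
  · rename_i i
    unfold node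
    rw [Nat.mul_div_cancel _ (Nat.two_pow_pos _)]
  · rename_i i
    unfold node
    have h2 := Nat.two_pow_pos (M - i.val)
    rw [Nat.mul_comm (a.val / 2 ^ (M - i.val)), Nat.mul_add_div h2,
      Nat.div_eq_of_lt (by omega : 2 ^ (M - i.val) - 1 < 2 ^ (M - i.val)), Nat.add_zero]

theorem node_coord {i : ℕ} (x : El M) (h : i ≤ x.1.lev) :
    node M i (coord x) = node M i x.2 :=
  node_coarsen h (node_coord_self x)

/-! ### Bookkeeping on classes -/

theorem zoneR_lt_anc {p : Cls M} (h : p.zoneR < 56) : ∃ j, p = .anc j := by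
  cases p <;> first | exact ⟨_, rfl⟩ | (simp only [Cls.zoneR] at h; (try split at h) <;> omega)

theorem zoneC_lt_anc {p : Cls M} (h : p.zoneC < 56) : ∃ j, p = .anc j := by
  cases p <;> first | exact ⟨_, rfl⟩ | (simp only [Cls.zoneC] at h; (try split at h) <;> omega)

theorem zoneR_le (p : Cls M) : p.zoneR ≤ 68 := by
  cases p <;> simp only [Cls.zoneR] <;> (try split) <;> omega

theorem zoneC_le (p : Cls M) : p.zoneC ≤ 68 := by
  cases p <;> simp only [Cls.zoneC] <;> (try split) <;> omega

theorem mat_anc_row {x x' : El M} {j : Fin 56} (h : x.1 = .anc j) (h' : x'.1 = .anc j)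
    (y : El M) : mat x y = mat x' y := by
  obtain ⟨q, b⟩ := y
  cases q <;> simp [mat, h, h']

theorem mat_anc_col {y y' : El M} {j : Fin 56} (h : y.1 = .anc j) (h' : y'.1 = .anc j)
    (x : El M) : mat x y = mat x y' := by
  obtain ⟨p, a⟩ := x
  cases p <;> simp [mat, h, h']

theorem mat_sigR {x y : El M} {j : Fin 56} (hx : 56 ≤ x.1.zoneR) (hy : y.1 = .anc j) :
    mat x y = sig x.1.kindR j := by
  obtain ⟨p, a⟩ := x
  cases p <;> simp_all [mat, Cls.zoneR] <;> omega

theorem mat_sigC {x y : El M} {j : Fin 56} (hy : 56 ≤ y.1.zoneC) (hx : x.1 = .anc j) :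
    mat x y = sig y.1.kindC j := by
  obtain ⟨q, b⟩ := y
  cases q <;> simp_all [mat, Cls.zoneC] <;> omega

theorem mat_du_nondu {x y : El M} {r : Fin 7} (hx : x.1 = .du r) (hy : 56 ≤ y.1.zoneC)
    (hy' : ∀ s, y.1 ≠ .du s) : mat x y = false := by
  obtain ⟨q, b⟩ := y
  cases q <;> simp_all [mat, Cls.zoneC] <;> omega

theorem mat_nondu_du {x y : El M} {s : Fin 7} (hy : y.1 = .du s) (hx : 56 ≤ x.1.zoneR)
    (hx' : ∀ r, x.1 ≠ .du r) : mat x y = false := by
  obtain ⟨p, a⟩ := x
  cases p <;> simp_all [mat, Cls.zoneR] <;> omega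

theorem isTree_iff_zoneR {p : Cls M} : p.isTree = true ↔ 62 ≤ p.zoneR ∧ p.zoneR ≤ 64 := by
  cases p <;> simp only [Cls.isTree, Cls.zoneR] <;> (try split) <;>
    simp <;> omega

theorem isTree_iff_zoneC {p : Cls M} : p.isTree = true ↔ 62 ≤ p.zoneC ∧ p.zoneC ≤ 64 := by
  cases p <;> simp only [Cls.isTree, Cls.zoneC] <;> (try split) <;>
    simp <;> omega

theorem zone62_of_lev {p : Cls M} (hp : p.isTree = true) (h : p.lev ≤ M) :
    p.zoneR = 62 ∧ p.zoneC = 62 := by
  cases p <;> simp_all [Cls.isTree, Cls.lev, Cls.zoneR, Cls.zoneC]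

theorem mat_tree {x y : El M} (hx : x.1.isTree = true) (hy : y.1.isTree = true) :
    mat x y = decide (Rel x y) := by
  obtain ⟨p, a⟩ := x
  obtain ⟨q, b⟩ := y
  cases p <;> cases q <;> simp_all [mat, Cls.isTree]

theorem mat_ex_tree {x y : El M} {i : Fin (M + 2)} {s : Fin 2} (hx : x.1 = .ex i s)
    (hy : y.1.isTree = true) :
    mat x y = decide (y.1.lev = i.val ∧ elSide y = s.val) := by
  obtain ⟨q, b⟩ := y
  obtain ⟨p, a⟩ := x
  simp only at hx
  subst hx
  cases q <;> first | rfl | simp [Cls.isTree] at hy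

theorem mat_tree_ex {x y : El M} {i : Fin (M + 2)} {s : Fin 2} (hy : y.1 = .ex i s)
    (hx : x.1.isTree = true) :
    mat x y = decide (x.1.lev = i.val ∧ elSide x = s.val) := by
  obtain ⟨q, b⟩ := y
  obtain ⟨p, a⟩ := x
  simp only at hy
  subst hy
  cases p <;> first | rfl | simp [Cls.isTree] at hx

theorem mat_par_tree {x y : El M} {i : Fin (M + 2)} {s : Fin 2} (hx : x.1 = .par i s)
    (hy : y.1.isTree = true) : mat x y = decide (y.1.lev = i.val + 1) := by
  obtain ⟨q, b⟩ := y
  cases q <;> simp_all [mat, Cls.isTree]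

theorem mat_tree_par {x y : El M} {i : Fin (M + 2)} {s : Fin 2} (hy : y.1 = .par i s)
    (hx : x.1.isTree = true) : mat x y = decide (x.1.lev = i.val + 1) := by
  obtain ⟨p, a⟩ := x
  cases p <;> simp_all [mat, Cls.isTree]

end Vale.Agent.P037
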