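import Vale.Agent.P037.Rect

/-!
Every copy of `pat` in `mat M` sits in a leaf, so one of its columns is determined by one row.
-/

namespace Vale.Agent.P037

variable {M : ℕ}

/-- The index of a role. -/
def role (b : Fin 7) : Fin 63 := ⟨56 + b.val, by omega⟩

theorem pat_aa {i j : Fin 63} (hi : i.val < 56) (hj : j.val < 56) :
    pat i j = anchor i j := by simp [pat, hi, hj]

theorem pat_ar {i : Fin 63} (hi : i.val < 56) (b : Fin 7) :
    pat i (role b) = sig (roleC b) i := by
  simp [pat, hi, role]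

theorem pat_ra {j : Fin 63} (hj : j.val < 56) (b : Fin 7) :
    pat (role b) j = sig (roleR b) j := by
  simp [pat, hj, role]

theorem pat_rr (a b : Fin 7) : pat (role a) (role b) = core a b := by
  simp [pat, role]

theorem sig_eq_true {k j : ℕ} (h : sig k j = true) : j = k := by
  simp [sig] at h; exact h.2

theorem sig_inj {k k' : ℕ} (hk : k ≤ 2) (hk' : k' ≤ 2) (h0 : sig k 0 = sig k' 0)
    (h1 : sig k 1 = sig k' 1) : k = k' := by
  interval_cases k <;> interval_cases k' <;> simp_all [sig]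

theorem kindR_le (p : Cls M) : p.kindR ≤ 2 := by
  cases p with
  | du r => fin_cases r <;> simp [Cls.kindR, roleR]
  | _ => simp [Cls.kindR]

theorem kindC_le (p : Cls M) : p.kindC ≤ 2 := by
  cases p with
  | du r => fin_cases r <;> simp [Cls.kindC, roleC]
  | _ => simp [Cls.kindC]

theorem pigeon {z : ℕ → ℕ} (hmono : ∀ i j, i ≤ j → j ≤ 55 → z i ≤ z j) (h3 : 56 ≤ z 3)
    (htop : ∀ i, z i ≤ 68) : ∃ i, 3 ≤ i ∧ i + 3 ≤ 55 ∧ z i = z (i + 3) := by
  by_contra hne
  push Not at hne
  have step : ∀ t, t ≤ 15 → z 3 + t ≤ z (3 + 3 * t) := by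
    intro t ht
    induction t with
    | zero => simp
    | succ t ih =>
      have h1 := ih (by omega)
      have h2 := hne (3 + 3 * t) (by omega) (by omega)
      have h3 := hmono (3 + 3 * t) (3 + 3 * t + 3) (by omega) (by omega)
      rw [show 3 + 3 * (t + 1) = 3 + 3 * t + 3 by ring]
      omega
  have := step 13 (by omega)
  have := htop (3 + 3 * 13)
  omega

theorem id_of_strict {g : ℕ → ℕ} (hs : ∀ j, j < 55 → g j < g (j + 1)) (htop : g 55 ≤ 55) :
    ∀ j, j ≤ 55 → g j = j := by
  have lo : ∀ j, j ≤ 55 → j ≤ g j := by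
    intro j hj
    induction j with
    | zero => simp
    | succ j ih =>
      have := ih (by omega)
      have := hs j (by omega)
      omega
  have hi : ∀ t, t ≤ 55 → g (55 - t) + t ≤ 55 := by
    intro t ht
    induction t with
    | zero => simpa using htop
    | succ t ih =>
      have h1 := ih (by omega)
      have h2 := hs (55 - (t + 1)) (by omega)
      rw [show 55 - (t + 1) + 1 = 55 - t by omega] at h2
      omega
  intro j hj
  have := lo j hj
  have h := hi (55 - j) (by omega)
  rw [show 55 - (55 - j) = j by omega] at h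
  omega

/-- A copy of the pattern, as increasing maps into the elements. -/
structure IsCopy (R C : Fin 63 → El M) : Prop where
  rows : StrictMono (keyR ∘ R)
  cols : StrictMono (keyC ∘ C)
  vals : ∀ i j, mat (R i) (C j) = pat i j

namespace IsCopy

variable {R C : Fin 63 → El M}

theorem zR_mono (h : IsCopy R C) {i j : Fin 63} (hij : i ≤ j) :
    (R i).1.zoneR ≤ (R j).1.zoneR := keyR_le_zone (h.rows.monotone hij)

theorem zC_mono (h : IsCopy R C) {i j : Fin 63} (hij : i ≤ j) :
    (C i).1.zoneC ≤ (C j).1.zoneC := keyC_le_zone (h.cols.monotone hij)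

theorem row_anc_ne (h : IsCopy R C) {i i' : Fin 63} {a : Fin 56} (hi : i.val < 56)
    (hi' : i'.val < 56) (hne : i.val % 4 ≠ i'.val % 4)
    (e : (R i).1 = .anc a) (e' : (R i').1 = .anc a) : False := by
  have hk : i.val % 4 < 56 := by omega
  have hlt : (⟨i.val % 4, by omega⟩ : Fin 63).val < 56 := hk
  have := mat_anc_row e e' (C ⟨i.val % 4, by omega⟩)
  rw [h.vals, h.vals, pat_aa hi hlt, pat_aa hi' hlt] at this
  simp only [anchor] at this
  simp [Nat.mod_mod] at this
  exact hne this.symm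

theorem col_anc_ne (h : IsCopy R C) {i i' : Fin 63} {a : Fin 56} (hi : i.val < 56)
    (hi' : i'.val < 56) (hne : i.val % 4 ≠ i'.val % 4)
    (e : (C i).1 = .anc a) (e' : (C i').1 = .anc a) : False := by
  have hlt : (⟨i.val % 4, by omega⟩ : Fin 63).val < 56 := by simp only; omega
  have := mat_anc_col e e' (R ⟨i.val % 4, by omega⟩)
  rw [h.vals, h.vals, pat_aa hlt hi, pat_aa hlt hi'] at this
  simp only [anchor] at this
  simp [Nat.mod_mod] at this
  exact hne this

theorem col3_of_row55 (h : IsCopy R C) (h55 : 56 ≤ (R 55).1.zoneR) : 56 ≤ (C 3).1.zoneC := by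
  by_contra hlt
  push Not at hlt
  have h0 : (C 0).1.zoneC < 56 := lt_of_le_of_lt (h.zC_mono (by decide)) hlt
  have h1 : (C 1).1.zoneC < 56 := lt_of_le_of_lt (h.zC_mono (by decide)) hlt
  obtain ⟨a, ha⟩ := zoneC_lt_anc h0
  obtain ⟨b, hb⟩ := zoneC_lt_anc h1
  have va := (mat_sigR h55 ha).symm.trans (h.vals 55 0)
  have vb := (mat_sigR h55 hb).symm.trans (h.vals 55 1)
  rw [show pat 55 0 = true by decide] at va
  rw [show pat 55 1 = true by decide] at vb
  have hab : a = b := Fin.ext ((sig_eq_true va).trans (sig_eq_true vb).symm)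
  exact h.col_anc_ne (i := 0) (i' := 1) (by decide) (by decide) (by decide) ha (hab ▸ hb)

theorem row3_of_col55 (h : IsCopy R C) (h55 : 56 ≤ (C 55).1.zoneC) : 56 ≤ (R 3).1.zoneR := by
  by_contra hlt
  push Not at hlt
  have h0 : (R 0).1.zoneR < 56 := lt_of_le_of_lt (h.zR_mono (by decide)) hlt
  have h1 : (R 1).1.zoneR < 56 := lt_of_le_of_lt (h.zR_mono (by decide)) hlt
  obtain ⟨a, ha⟩ := zoneR_lt_anc h0
  obtain ⟨b, hb⟩ := zoneR_lt_anc h1
  have va := (mat_sigC h55 ha).symm.trans (h.vals 0 55)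
  have vb := (mat_sigC h55 hb).symm.trans (h.vals 1 55)
  rw [show pat 0 55 = true by decide] at va
  rw [show pat 1 55 = true by decide] at vb
  have hab : a = b := Fin.ext ((sig_eq_true va).trans (sig_eq_true vb).symm)
  exact h.row_anc_ne (i := 0) (i' := 1) (by decide) (by decide) (by decide) ha (hab ▸ hb)

theorem not_both (h : IsCopy R C) (hr : 56 ≤ (R 3).1.zoneR) (hc : 56 ≤ (C 3).1.zoneC) :
    False := by
  obtain ⟨r, hr3, hr55, hrz⟩ := pigeon (z := fun i => (R ⟨min i 62, by omega⟩).1.zoneR)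
    (fun i j hij _ => h.zR_mono (Fin.mk_le_mk.2 (by omega))) hr
    (fun i => zoneR_le _)
  obtain ⟨c, hc3, hc55, hcz⟩ := pigeon (z := fun i => (C ⟨min i 62, by omega⟩).1.zoneC)
    (fun i j hij _ => h.zC_mono (Fin.mk_le_mk.2 (by omega))) hc
    (fun i => zoneC_le _)
  have hmr : min r 62 = r := by omega
  have hmr' : min (r + 3) 62 = r + 3 := by omega
  have hmc : min c 62 = c := by omega
  have hmc' : min (c + 3) 62 = c + 3 := by omega
  simp only [hmr, hmr'] at hrz
  simp only [hmc, hmc'] at hcz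
  have rz : ∀ k : ℕ, ∀ hk : k < 63, r ≤ k → k ≤ r + 3 →
      (R ⟨k, hk⟩).1.zoneR = (R ⟨r, by omega⟩).1.zoneR := by
    intro k hk h1 h2
    have a1 := h.zR_mono (Fin.mk_le_mk.2 h1 : (⟨r, by omega⟩ : Fin 63) ≤ ⟨k, hk⟩)
    have a2 := h.zR_mono (Fin.mk_le_mk.2 h2 : (⟨k, hk⟩ : Fin 63) ≤ ⟨r + 3, by omega⟩)
    omega
  have cz : ∀ k : ℕ, ∀ hk : k < 63, c ≤ k → k ≤ c + 3 →
      (C ⟨k, hk⟩).1.zoneC = (C ⟨c, by omega⟩).1.zoneC := by
    intro k hk h1 h2
    have a1 := h.zC_mono (Fin.mk_le_mk.2 h1 : (⟨c, by omega⟩ : Fin 63) ≤ ⟨k, hk⟩)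
    have a2 := h.zC_mono (Fin.mk_le_mk.2 h2 : (⟨k, hk⟩ : Fin 63) ≤ ⟨c + 3, by omega⟩)
    omega
  -- three rows in the window with residues `c`, `c+1`, `c+2` modulo `4`
  obtain ⟨a, ha⟩ : ∃ a, a = r + (c + 4 * 64 - r) % 4 := ⟨_, rfl⟩
  obtain ⟨b, hb⟩ : ∃ b, b = r + (c + 1 + 4 * 64 - r) % 4 := ⟨_, rfl⟩
  obtain ⟨d, hd⟩ : ∃ d, d = r + (c + 2 + 4 * 64 - r) % 4 := ⟨_, rfl⟩
  have hr56 : 56 ≤ (R ⟨r, by omega⟩).1.zoneR :=
    le_trans hr (h.zR_mono (show (3 : Fin 63).val ≤ r by simpa using hr3))
  have hc56 : 56 ≤ (C ⟨c, by omega⟩).1.zoneC :=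
    le_trans hc (h.zC_mono (show (3 : Fin 63).val ≤ c by simpa using hc3))
  have za := rz a (by omega) (by omega) (by omega)
  have zb := rz b (by omega) (by omega) (by omega)
  have zd := rz d (by omega) (by omega) (by omega)
  have z2 := cz (c + 2) (by omega) (by omega) (by omega)
  have z3 := cz (c + 3) (by omega) (by omega) (by omega)
  have val : ∀ i j (hi : i < 63) (hj : j < 63), i < 56 → j < 56 →
      mat (R ⟨i, hi⟩) (C ⟨j, hj⟩) = decide (i % 4 ≠ j % 4) := by
    intro i j hi hj hi' hj'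
    rw [h.vals, pat_aa (by exact hi') (by exact hj')]
    rfl
  rcases block_rect (x := R ⟨a, by omega⟩) (x' := R ⟨b, by omega⟩)
      (y := C ⟨c + 2, by omega⟩) (y' := C ⟨c + 3, by omega⟩)
      (by omega) (by omega) (by omega) (by omega)
      (by rw [val _ _ _ _ (by omega) (by omega)]; simp; omega)
      (by rw [val _ _ _ _ (by omega) (by omega)]; simp; omega)
      (by rw [val _ _ _ _ (by omega) (by omega)]; simp; omega)
      (by rw [val _ _ _ _ (by omega) (by omega)]; simp; omega) with e | e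
  · have := e (C ⟨c, by omega⟩) (by omega)
    rw [val _ _ _ _ (by omega) (by omega), val _ _ _ _ (by omega) (by omega),
      decide_eq_decide] at this
    omega
  · have := e (R ⟨d, by omega⟩) (by omega)
    rw [val _ _ _ _ (by omega) (by omega), val _ _ _ _ (by omega) (by omega),
      decide_eq_decide] at this
    omega

theorem anchors (h : IsCopy R C) :
    (R 55).1.zoneR < 56 ∧ (C 55).1.zoneC < 56 := by
  constructor
  · by_contra hr
    push Not at hr
    have hc := h.col3_of_row55 hr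
    exact h.not_both (h.row3_of_col55 (le_trans hc (h.zC_mono (by decide)))) hc
  · by_contra hc
    push Not at hc
    have hr := h.row3_of_col55 hc
    exact h.not_both hr (h.col3_of_row55 (le_trans hr (h.zR_mono (by decide))))

theorem row_anchor (h : IsCopy R C) (j : ℕ) (hj : j < 56) :
    (R ⟨j, by omega⟩).1 = .anc ⟨j, hj⟩ := by
  have low : ∀ i (hi : i < 56), ∃ a, (R ⟨i, by omega⟩).1 = .anc a := fun i hi =>
    zoneR_lt_anc (lt_of_le_of_lt (h.zR_mono (show (⟨i, by omega⟩ : Fin 63) ≤ 55 by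
      simp [Fin.le_def]; omega)) h.anchors.1)
  have g : ∀ i, i ≤ 55 → (fun i => (R ⟨min i 55, by omega⟩).1.zoneR) i = i := by
    apply id_of_strict
    · intro i hi
      have e1 : min i 55 = i := by omega
      have e2 : min (i + 1) 55 = i + 1 := by omega
      simp only [e1, e2]
      refine lt_of_le_of_ne (h.zR_mono (Fin.mk_le_mk.2 (by omega))) fun e => ?_
      obtain ⟨a, ha⟩ := low i (by omega)
      obtain ⟨b, hb⟩ := low (i + 1) (by omega)
      rw [ha, hb] at e
      obtain rfl : a = b := Fin.ext e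
      exact h.row_anc_ne (i := ⟨i, by omega⟩) (i' := ⟨i + 1, by omega⟩) (by simp only; omega)
        (by simp only; omega) (by simp only; omega) ha hb
    · exact Nat.le_of_lt_succ h.anchors.1
  obtain ⟨a, ha⟩ := low j hj
  have := g j (by omega)
  simp only [show min j 55 = j by omega, ha] at this
  rw [ha]
  exact congrArg Cls.anc (Fin.ext this)

theorem col_anchor (h : IsCopy R C) (j : ℕ) (hj : j < 56) :
    (C ⟨j, by omega⟩).1 = .anc ⟨j, hj⟩ := by
  have low : ∀ i (hi : i < 56), ∃ a, (C ⟨i, by omega⟩).1 = .anc a := fun i hi =>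
    zoneC_lt_anc (lt_of_le_of_lt (h.zC_mono (show (⟨i, by omega⟩ : Fin 63) ≤ 55 by
      simp [Fin.le_def]; omega)) h.anchors.2)
  have g : ∀ i, i ≤ 55 → (fun i => (C ⟨min i 55, by omega⟩).1.zoneC) i = i := by
    apply id_of_strict
    · intro i hi
      have e1 : min i 55 = i := by omega
      have e2 : min (i + 1) 55 = i + 1 := by omega
      simp only [e1, e2]
      refine lt_of_le_of_ne (h.zC_mono (Fin.mk_le_mk.2 (by omega))) fun e => ?_
      obtain ⟨a, ha⟩ := low i (by omega)
      obtain ⟨b, hb⟩ := low (i + 1) (by omega)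
      rw [ha, hb] at e
      obtain rfl : a = b := Fin.ext e
      exact h.col_anc_ne (i := ⟨i, by omega⟩) (i' := ⟨i + 1, by omega⟩) (by simp only; omega)
        (by simp only; omega) (by simp only; omega) ha hb
    · exact Nat.le_of_lt_succ h.anchors.2
  obtain ⟨a, ha⟩ := low j hj
  have := g j (by omega)
  simp only [show min j 55 = j by omega, ha] at this
  rw [ha]
  exact congrArg Cls.anc (Fin.ext this)

theorem row_role (h : IsCopy R C) (b : Fin 7) :
    56 ≤ (R (role b)).1.zoneR ∧ (R (role b)).1.kindR = roleR b := by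
  have hz : 56 ≤ (R (role b)).1.zoneR := by
    by_contra hlt
    push Not at hlt
    obtain ⟨a, ha⟩ := zoneR_lt_anc hlt
    have h55 : (R 55).1 = .anc ⟨55, by omega⟩ := h.row_anchor 55 (by omega)
    have := h.zR_mono (show (55 : Fin 63) ≤ role b by
      simp [Fin.le_def, role]; omega)
    rw [h55, ha] at this
    have ea : a = (55 : Fin 56) := Fin.ext (by
      simp only [Cls.zoneR] at this; have := a.isLt; simp; omega)
    subst ea
    have w0 := mat_anc_row ha h55 (C 0)
    have w1 := mat_anc_row ha h55 (C 1)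
    rw [h.vals, h.vals, pat_ra (by simp), show pat 55 0 = true by decide] at w0
    rw [h.vals, h.vals, pat_ra (by simp), show pat 55 1 = true by decide] at w1
    have a0 := sig_eq_true w0
    have a1 := sig_eq_true w1
    simp at a0 a1
    omega
  refine ⟨hz, sig_inj (kindR_le _) (by fin_cases b <;> simp [roleR]) ?_ ?_⟩
  · have := (mat_sigR hz (h.col_anchor 0 (by omega))).symm.trans (h.vals _ _)
    rwa [pat_ra (by simp)] at this
  · have := (mat_sigR hz (h.col_anchor 1 (by omega))).symm.trans (h.vals _ _)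
    rwa [pat_ra (by simp)] at this

theorem col_role (h : IsCopy R C) (b : Fin 7) :
    56 ≤ (C (role b)).1.zoneC ∧ (C (role b)).1.kindC = roleC b := by
  have hz : 56 ≤ (C (role b)).1.zoneC := by
    by_contra hlt
    push Not at hlt
    obtain ⟨a, ha⟩ := zoneC_lt_anc hlt
    have h55 : (C 55).1 = .anc ⟨55, by omega⟩ := h.col_anchor 55 (by omega)
    have := h.zC_mono (show (55 : Fin 63) ≤ role b by
      simp [Fin.le_def, role]; omega)
    rw [h55, ha] at this
    have ea : a = (55 : Fin 56) := Fin.ext (by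
      simp only [Cls.zoneC] at this; have := a.isLt; simp; omega)
    subst ea
    have w0 := mat_anc_col ha h55 (R 0)
    have w1 := mat_anc_col ha h55 (R 1)
    rw [h.vals, h.vals, pat_ar (by simp), show pat 0 55 = true by decide] at w0
    rw [h.vals, h.vals, pat_ar (by simp), show pat 1 55 = true by decide] at w1
    have a0 := sig_eq_true w0
    have a1 := sig_eq_true w1
    simp at a0 a1
    omega
  refine ⟨hz, sig_inj (kindC_le _) (by fin_cases b <;> simp [roleC]) ?_ ?_⟩
  · have := (mat_sigC hz (h.row_anchor 0 (by omega))).symm.trans (h.vals _ _)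
    rwa [pat_ar (by simp)] at this
  · have := (mat_sigC hz (h.row_anchor 1 (by omega))).symm.trans (h.vals _ _)
    rwa [pat_ar (by simp)] at this

end IsCopy

end Vale.Agent.P037
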