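import Vale.Agent.P037.Forcing

/-!
The counterexample matrices over `Fin n`, with the bounds on copies and on the distance.
-/

namespace Vale.Agent.P037

theorem exists_sorted_equiv {X β : Type*} [Fintype X] [LinearOrder β] (key : X → β)
    (h : Function.Injective key) :
    ∃ e : Fin (Fintype.card X) ≃ X, StrictMono (key ∘ e) := by
  letI : LinearOrder X := LinearOrder.lift' key h
  obtain e := monoEquivOfFin X rfl
  exact ⟨e.toEquiv, fun a b hab => (e.strictMono hab : e a < e b)⟩

/-- The classes are at most `18 * (M + 56)` in number. -/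
theorem card_cls_le (M : ℕ) : Fintype.card (Cls M) ≤ 18 * (M + 56) := by
  let code : Cls M → Fin 9 × Fin (M + 56) × Fin 2 := fun p =>
    match p with
    | .anc j => (⟨0, by omega⟩, ⟨j, by omega⟩, 0)
    | .du t => (⟨1, by omega⟩, ⟨t, by omega⟩, 0)
    | .ex i s => (⟨2, by omega⟩, ⟨i, by omega⟩, s)
    | .par i s => (⟨3, by omega⟩, ⟨i, by omega⟩, s)
    | .head i => (⟨4, by omega⟩, ⟨i, by omega⟩, 0)
    | .leaf => (⟨5, by omega⟩, ⟨0, by omega⟩, 0)
    | .tail i => (⟨6, by omega⟩, ⟨i, by omega⟩, 0)
    | .sink => (⟨7, by omega⟩, ⟨0, by omega⟩, 0)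
    | .top => (⟨8, by omega⟩, ⟨0, by omega⟩, 0)
  have hinj : Function.Injective code := by
    intro a b hab
    have h1 : (code a).1.val = (code b).1.val := by rw [hab]
    have h2 : (code a).2.1.val = (code b).2.1.val := by rw [hab]
    have h3 : (code a).2.2 = (code b).2.2 := by rw [hab]
    clear hab
    cases a <;> cases b <;>
      first
        | rfl
        | exact congrArg _ (Fin.ext h2)
        | exact congrArg₂ _ (Fin.ext h2) h3
        | exact absurd h1 (by simp only [code]; omega)
  have := Fintype.card_le_of_injective code hinj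
  simp only [Fintype.card_prod, Fintype.card_fin] at this
  calc Fintype.card (Cls M) ≤ 9 * ((M + 56) * 2) := this
    _ = 18 * (M + 56) := by ring

theorem two_le_card_cls (M : ℕ) : 2 ≤ Fintype.card (Cls M) :=
  Fintype.one_lt_card_iff.2 ⟨.sink, .top, by simp⟩

/-- There is an `n × n` matrix, `n = P * 2 ^ M`, with at most `n ^ 125` copies of `pat`, and
differing in at least `(2 ^ M) ^ 2` entries from every matrix without copies. -/
theorem exists_matrix (M : ℕ) : ∃ (n : ℕ) (A : Fin n → Fin n → Bool),
    n = Fintype.card (Cls M) * 2 ^ M ∧ numCopies pat A ≤ n ^ 125 ∧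
      ∀ B, numCopies pat B = 0 → 2 ^ M * 2 ^ M ≤ numDiff A B := by
  classical
  obtain ⟨eR, hR⟩ := exists_sorted_equiv (keyR (M := M)) keyR_inj
  obtain ⟨eC, hC⟩ := exists_sorted_equiv (keyC (M := M)) keyC_inj
  refine ⟨Fintype.card (El M), fun u v => mat (eR u) (eC v), by simp, ?_, ?_⟩
  · -- one column of each copy is determined by one of its rows
    let f : {p : (Fin 63 → Fin (Fintype.card (El M))) × (Fin 63 → Fin (Fintype.card (El M))) //
        StrictMono p.1 ∧ StrictMono p.2 ∧
          ∀ i j, (fun u v => mat (eR u) (eC v)) (p.1 i) (p.2 j) = pat i j} →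
        (Fin 63 → Fin (Fintype.card (El M))) ×
          ({j : Fin 63 // j ≠ role 5} → Fin (Fintype.card (El M))) :=
      fun p => (p.1.1, fun j => p.1.2 j.1)
    have hf : Function.Injective f := by
      rintro ⟨⟨ρ, γ⟩, hρ, hγ, hv⟩ ⟨⟨ρ', γ'⟩, hρ', hγ', hv'⟩ heq
      simp only [f, Prod.mk.injEq] at heq
      obtain ⟨rfl, hg⟩ := heq
      have c1 : IsCopy (eR ∘ ρ) (eC ∘ γ) := ⟨hR.comp hρ, hC.comp hγ, hv⟩
      have c2 : IsCopy (eR ∘ ρ) (eC ∘ γ') := ⟨hR.comp hρ, hC.comp hγ', hv'⟩
      have he : γ (role 5) = γ' (role 5) := eC.injective (c1.determined.trans c2.determined.symm)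
      have : γ = γ' := by
        funext j
        by_cases hj : j = role 5
        · rw [hj]; exact he
        · exact congrFun hg ⟨j, hj⟩
      subst this
      rfl
    have hc := Nat.card_le_card_of_injective f hf
    simp [← pow_add] at hc
    simpa [numCopies] using hc
  · intro B hB
    let B' : El M → El M → Bool := fun x y => B (eR.symm x) (eC.symm y)
    have hno : NoCopy B' := by
      intro R C sR sC
      by_contra hne
      push Not at hne
      have mR : StrictMono (eR.symm ∘ R) := fun a b hab => hR.lt_iff_lt.1 (by simpa using sR hab)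
      have mC : StrictMono (eC.symm ∘ C) := fun a b hab => hC.lt_iff_lt.1 (by simpa using sC hab)
      have hpos : 0 < numCopies pat B :=
        @Nat.card_pos _ ⟨⟨(eR.symm ∘ R, eC.symm ∘ C), mR, mC, hne⟩⟩ _
      omega
    refine (diff_lower hno).trans (le_of_eq (Nat.card_congr ?_))
    refine (Equiv.prodCongr eR.symm eC.symm).subtypeEquiv fun q => ?_
    simp [B']

open Filter in
/-- An exponential eventually beats every power. -/
theorem exists_level (c : ℝ) (hc : 0 < c) (D : ℕ) :
    ∃ M : ℕ, (18 * ((M : ℝ) + 56)) ^ D < c * 2 ^ M := by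
  have ht := (tendsto_pow_const_div_const_pow_of_one_lt D (by norm_num : (1 : ℝ) < 2))
  have hpos : (0 : ℝ) < c / (18 ^ D * 2 ^ 56) := by positivity
  obtain ⟨N, hN⟩ := eventually_atTop.1 (ht.eventually_lt_const hpos)
  refine ⟨N, ?_⟩
  have h := hN (N + 56) (by omega)
  rw [div_lt_div_iff₀ (by positivity) (by positivity), pow_add] at h
  push_cast at h
  rw [mul_pow]
  nlinarith [h]

end Vale.Agent.P037
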