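import Mathlib

/-!
Basic notions of P037: ordered copies of a pattern in a binary matrix, and their number.
-/

namespace Vale.Agent.P037

/-- The number of ordered copies of the `k × k` pattern `H` in the `n × n` matrix `A`:
pairs of strictly increasing row and column choices reproducing `H` exactly. -/
noncomputable def numCopies {k n : ℕ} (H : Fin k → Fin k → Bool) (A : Fin n → Fin n → Bool) : ℕ :=
  Nat.card {p : (Fin k → Fin n) × (Fin k → Fin n) //
    StrictMono p.1 ∧ StrictMono p.2 ∧ ∀ i j, A (p.1 i) (p.2 j) = H i j}

/-- The number of entries in which two `n × n` matrices differ. -/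
noncomputable def numDiff {n : ℕ} (A B : Fin n → Fin n → Bool) : ℕ :=
  Nat.card {q : Fin n × Fin n // A q.1 q.2 ≠ B q.1 q.2}

end Vale.Agent.P037
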