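import Vale.Agent.P037.Leaf

/-!
Every matrix with no copy of `pat` differs from `mat M` in at least `(2 ^ M) ^ 2` entries.
-/

namespace Vale.Agent.P037

variable {M : ℕ}

/-- Classes of the `63` indices, given those of the seven roles. -/
def withAnchor (f : Fin 7 → Cls M) (i : Fin 63) : Cls M :=
  if h : i.val < 56 then .anc ⟨i.val, h⟩ else f ⟨i.val - 56, by omega⟩

theorem withAnchor_anc (f : Fin 7 → Cls M) {i : Fin 63} (h : i.val < 56) :
    withAnchor f i = .anc ⟨i.val, h⟩ := by simp [withAnchor, h]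

theorem withAnchor_role (f : Fin 7 → Cls M) (b : Fin 7) : withAnchor f (role b) = f b := by
  simp [withAnchor, role]

theorem index_cases (i : Fin 63) : i.val < 56 ∨ ∃ b, i = role b := by
  by_cases h : i.val < 56
  · exact Or.inl h
  · exact Or.inr ⟨⟨i.val - 56, by omega⟩, Fin.ext (by simp [role]; omega)⟩

theorem coord_bounds {i : ℕ} (x : El M) (h : i ≤ x.1.lev) :
    node M i x.2 * 2 ^ (M - i) ≤ coord x ∧
      coord x ≤ node M i x.2 * 2 ^ (M - i) + (2 ^ (M - i) - 1) := by
  rw [← node_coord x h]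
  have h2 := Nat.two_pow_pos (M - i)
  have := Nat.div_add_mod' (coord x) (2 ^ (M - i))
  have := Nat.mod_lt (coord x) h2
  unfold node
  omega

theorem side_lt (i a : ℕ) : side M i a < 2 := by
  unfold side
  split
  · exact Nat.mod_lt _ two_pos
  · omega

theorem isPath_false_of_zero (p : Cls M) (h : p.isTree = true) (h0 : p.lev = 0) :
    p.isPath = false := by
  cases p <;> simp_all [Cls.isTree, Cls.lev, Cls.isPath]

/-- Row representatives for a chosen leaf `l` and a chosen index `r`. -/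
def rep (l r : Fin (2 ^ M)) (p : Cls M) : El M := (p, if p.isPath then l else r)

theorem rep_fst (l r : Fin (2 ^ M)) (p : Cls M) : (rep l r p).1 = p := rfl

theorem node_rep (l r : Fin (2 ^ M)) {p : Cls M} {i : ℕ} (hp : p.isPath = true ∨ i = 0) :
    node M i (rep l r p).2 = node M i l := by
  rcases hp with hp | hp
  · simp [rep, hp]
  · rw [hp, node_zero (Fin.isLt _), node_zero (Fin.isLt _)]

/-- All entries outside the leaf-dependent part agree with `mat`, at one choice. -/
def Good (B : El M → El M → Bool) (l r r' : Fin (2 ^ M)) : Prop :=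
  ∀ p q : Cls M, ¬ (p.isPath = true ∧ q.isPath = true) →
    B (rep l r p) (rep l r' q) = mat (rep l r p) (rep l r' q)

/-- `B` has no copy of the pattern. -/
def NoCopy (B : El M → El M → Bool) : Prop :=
  ∀ R C : Fin 63 → El M, StrictMono (keyR ∘ R) → StrictMono (keyC ∘ C) →
    ∃ i j, B (R i) (C j) ≠ pat i j

theorem strict_withAnchor {β : Type*} [Preorder β] (key : El M → β) (g : Cls M → El M)
    (f : Fin 7 → Cls M)
    (hanc : ∀ a b : Fin 56, a < b → key (g (.anc a)) < key (g (.anc b)))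
    (hfirst : key (g (.anc 55)) < key (g (f 0)))
    (hstep : ∀ b : Fin 6, key (g (f b.castSucc)) < key (g (f b.succ))) :
    StrictMono (key ∘ g ∘ withAnchor f) := by
  refine Fin.strictMono_iff_lt_succ.2 fun i => ?_
  simp only [Function.comp_apply]
  rcases Nat.lt_trichotomy i.val 55 with h | h | h
  · rw [withAnchor_anc f (show i.castSucc.val < 56 by simp; omega),
      withAnchor_anc f (show i.succ.val < 56 by simp; omega)]
    exact hanc _ _ (by simp [Fin.lt_def])
  · rw [withAnchor_anc f (show i.castSucc.val < 56 by simp; omega),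
      show i.succ = role 0 from Fin.ext (by simp [role]; omega), withAnchor_role]
    have : (⟨i.castSucc.val, by simp; omega⟩ : Fin 56) = 55 := Fin.ext (by simp; omega)
    rw [this]
    exact hfirst
  · obtain ⟨b, hb⟩ : ∃ b : Fin 6, i.val = 56 + b.val := ⟨⟨i.val - 56, by omega⟩, by simp; omega⟩
    rw [show i.castSucc = role b.castSucc from Fin.ext (by simp [role]; omega),
      show i.succ = role b.succ from Fin.ext (by simp [role]; omega),
      withAnchor_role, withAnchor_role]
    exact hstep b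

theorem zoneR_ex (i : Fin (M + 2)) (s : Fin 2) : (Cls.ex i s : Cls M).zoneR = 60 := rfl
theorem zoneR_par (i : Fin (M + 2)) (s : Fin 2) : (Cls.par i s : Cls M).zoneR = 61 := rfl
theorem zoneC_ex (i : Fin (M + 2)) (s : Fin 2) : (Cls.ex i s : Cls M).zoneC = 60 := rfl
theorem zoneR_anc (j : Fin 56) : (Cls.anc j : Cls M).zoneR = j.val := rfl
theorem zoneC_anc (j : Fin 56) : (Cls.anc j : Cls M).zoneC = j.val := rfl
theorem kindR_du (t : Fin 7) : (Cls.du t : Cls M).kindR = roleR t := rfl
theorem kindR_ex (i : Fin (M + 2)) (s : Fin 2) : (Cls.ex i s : Cls M).kindR = 0 := rfl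
theorem kindR_par (i : Fin (M + 2)) (s : Fin 2) : (Cls.par i s : Cls M).kindR = 1 := rfl
theorem kindC_du (t : Fin 7) : (Cls.du t : Cls M).kindC = roleC t := rfl
theorem kindC_ex (i : Fin (M + 2)) (s : Fin 2) : (Cls.ex i s : Cls M).kindC = 0 := rfl
theorem kindC_par (i : Fin (M + 2)) (s : Fin 2) : (Cls.par i s : Cls M).kindC = 1 := rfl

section Steps

variable {B : El M → El M → Bool} {l r r' : Fin (2 ^ M)}

theorem anchor_vals (hg : Good B l r r') (fR fC : Fin 7 → Cls M)
    (kR : ∀ b, 56 ≤ (fR b).zoneR ∧ (fR b).kindR = roleR b)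
    (kC : ∀ b, 56 ≤ (fC b).zoneC ∧ (fC b).kindC = roleC b)
    (hrr : ∀ a b, B (rep l r (fR a)) (rep l r' (fC b)) = core a b) (i j : Fin 63) :
    B (rep l r (withAnchor fR i)) (rep l r' (withAnchor fC j)) = pat i j := by
  rcases index_cases i with hi | ⟨a, rfl⟩ <;> rcases index_cases j with hj | ⟨b, rfl⟩
  · rw [withAnchor_anc fR hi, withAnchor_anc fC hj, hg _ _ (by simp [Cls.isPath]), pat_aa hi hj]
    simp [mat, rep]
  · rw [withAnchor_anc fR hi, withAnchor_role, hg _ _ (by simp [Cls.isPath]), pat_ar hi,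
      mat_sigC (kC b).1 rfl, ← (kC b).2]
    rfl
  · rw [withAnchor_anc fC hj, withAnchor_role, hg _ _ (by simp [Cls.isPath]), pat_ra hj,
      mat_sigR (kR a).1 rfl, ← (kR a).2]
    rfl
  · rw [withAnchor_role, withAnchor_role, pat_rr, hrr]

theorem tree_kind {p : Cls M} (h : p.isTree = true) :
    p.kindR = 2 ∧ p.kindC = 2 ∧ 62 ≤ p.zoneR ∧ p.zoneR ≤ 64 ∧ 62 ≤ p.zoneC ∧ p.zoneC ≤ 64 := by
  refine ⟨?_, ?_, (isTree_iff_zoneR.1 h).1, (isTree_iff_zoneR.1 h).2,
    (isTree_iff_zoneC.1 h).1, (isTree_iff_zoneC.1 h).2⟩ <;>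
    cases p <;> simp_all [Cls.isTree, Cls.kindR, Cls.kindC]

theorem tree_ne_du {p : Cls M} (h : p.isTree = true) (t : Fin 7) : p ≠ .du t := by
  rintro rfl
  simp [Cls.isTree] at h

/-- The first rule: two ones above and below force the entry between them. -/
theorem force_one (hB : NoCopy B) (hg : Good B l r r') {x z x'' y : Cls M}
    {i : Fin (M + 2)} {s : Fin 2}
    (hx : x.isTree = true) (hz : z.isTree = true) (hx'' : x''.isTree = true)
    (hy : y.isTree = true)
    (lx : x.lev = i.val ∧ elSide (rep l r x) = s.val)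
    (lx'' : x''.lev = i.val ∧ elSide (rep l r x'') = s.val)
    (ly : y.lev = i.val ∧ elSide (rep l r' y) = s.val) (lz : z.lev = i.val + 1)
    (o1 : keyR (rep l r x) < keyR (rep l r z)) (o2 : keyR (rep l r z) < keyR (rep l r x''))
    (b1 : B (rep l r x) (rep l r' y) = true) (b2 : B (rep l r x'') (rep l r' y) = true) :
    B (rep l r z) (rep l r' y) = true := by
  by_contra hne
  rw [Bool.not_eq_true] at hne
  obtain ⟨fR, hfR⟩ : ∃ f : Fin 7 → Cls M,
      f = ![.ex i s, x, z, x'', .du 4, .du 5, .du 6] := ⟨_, rfl⟩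
  obtain ⟨fC, hfC⟩ : ∃ f : Fin 7 → Cls M,
      f = ![.ex i s, .par i s, y, .du 3, .du 4, .du 5, .du 6] := ⟨_, rfl⟩
  obtain ⟨x2, -, xlo, xhi, -, -⟩ := tree_kind hx
  obtain ⟨z2, -, zlo, zhi, -, -⟩ := tree_kind hz
  obtain ⟨x2'', -, xlo'', xhi'', -, -⟩ := tree_kind hx''
  obtain ⟨-, y2, -, -, ylo, yhi⟩ := tree_kind hy
  have sR : StrictMono (keyR ∘ rep l r ∘ withAnchor fR) := by
    refine strict_withAnchor _ _ _ (fun a b h => keyR_lt_of_zone h) ?_ ?_
    · subst hfR; exact keyR_lt_of_zone (by simp [rep, zoneR_du, zoneR_ex, zoneR_par, zoneR_anc])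
    · intro b
      subst hfR
      fin_cases b
      · exact keyR_lt_of_zone (by simp [rep, zoneR_du, zoneR_ex, zoneR_par, zoneR_anc] ; omega)
      · exact o1
      · exact o2
      · exact keyR_lt_of_zone (by
          show x''.zoneR < (Cls.du 4 : Cls M).zoneR
          simp [zoneR_du, zoneR_ex, zoneR_par] ; omega)
      all_goals exact keyR_lt_of_zone (by simp [rep, zoneR_du, zoneR_ex, zoneR_par, zoneR_anc])
  have sC : StrictMono (keyC ∘ rep l r' ∘ withAnchor fC) := by
    refine strict_withAnchor _ _ _ (fun a b h => keyC_lt_of_zone h) ?_ ?_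
    · subst hfC; exact keyC_lt_of_zone (by simp [rep, zoneC_du, zoneC_ex, zoneC_par, zoneC_anc])
    · intro b
      subst hfC
      fin_cases b
      · exact keyC_lt_of_zone (by simp [rep, zoneC_du, zoneC_ex, zoneC_par, zoneC_anc])
      · exact keyC_lt_of_zone (by
          show (Cls.par i s).zoneC < y.zoneC
          simp [zoneC_du, zoneC_ex, zoneC_par] ; omega)
      · exact keyC_lt_of_zone (by
          show y.zoneC < (Cls.du 3 : Cls M).zoneC
          simp [zoneC_du, zoneC_ex, zoneC_par] ; omega)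
      all_goals exact keyC_lt_of_zone (by simp [rep, zoneC_du, zoneC_ex, zoneC_par, zoneC_anc])
  obtain ⟨p, q, hpq⟩ := hB _ _ sR sC
  refine hpq (anchor_vals hg fR fC ?_ ?_ ?_ p q)
  · subst hfR
    intro b
    fin_cases b <;> simp [zoneR_du, zoneR_ex, zoneR_par, kindR_du, kindR_ex, kindR_par, roleR, x2, z2, x2''] <;> omega
  · subst hfC
    intro b
    fin_cases b <;> simp [zoneC_du, zoneC_ex, zoneC_par, kindC_du, kindC_ex, kindC_par, roleC, y2] <;> omega
  · subst hfR hfC
    have xe := mat_tree_ex (y := rep l r' (.ex i s)) (x := rep l r x) rfl hx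
    have xe'' := mat_tree_ex (y := rep l r' (.ex i s)) (x := rep l r x'') rfl hx''
    have ze := mat_tree_ex (y := rep l r' (.ex i s)) (x := rep l r z) rfl hz
    have xp := mat_tree_par (y := rep l r' (.par i s)) (x := rep l r x) rfl hx
    have xp'' := mat_tree_par (y := rep l r' (.par i s)) (x := rep l r x'') rfl hx''
    have zp := mat_tree_par (y := rep l r' (.par i s)) (x := rep l r z) rfl hz
    have ey := mat_ex_tree (x := rep l r (.ex i s)) (y := rep l r' y) rfl hy
    have fd : ∀ (p : Cls M) (t : Fin 7), p.isTree = true →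
        mat (rep l r p) (rep l r' (.du t)) = false := fun p t hp =>
      mat_nondu_du rfl (by have := (tree_kind hp).2.2.1; simp [rep]; omega)
        (fun u => tree_ne_du hp u)
    have df : ∀ (t : Fin 7), mat (rep l r (.du t)) (rep l r' y) = false := fun t =>
      mat_du_nondu rfl (by simp [rep]; omega) (fun u => tree_ne_du hy u)
    simp [rep_fst, lx.1, lx''.1, lz, ly.1, lx.2, lx''.2, ly.2] at xe xe'' ze xp xp'' zp ey
    intro a b
    fin_cases a <;> fin_cases b <;>
      first
        | exact b1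
        | exact b2
        | exact hne
        | (refine (hg _ _ (by simp [Cls.isPath])).trans ?_
           simp [core, xe, xe'', ze, xp, xp'', zp, ey, fd, df, hx, hz, hx'']
           try simp [mat, rep, core])

/-- The second rule: two ones left and right force the entry between them. -/
theorem force_two (hB : NoCopy B) (hg : Good B l r r') {z yl w yr : Cls M}
    {i : Fin (M + 2)} {s : Fin 2}
    (hz : z.isTree = true) (hl : yl.isTree = true) (hw : w.isTree = true)
    (hr : yr.isTree = true)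
    (ll : yl.lev = i.val ∧ elSide (rep l r' yl) = s.val)
    (lr : yr.lev = i.val ∧ elSide (rep l r' yr) = s.val)
    (lw : w.lev = i.val + 1) (lz : z.lev = i.val + 1)
    (o1 : keyC (rep l r' yl) < keyC (rep l r' w)) (o2 : keyC (rep l r' w) < keyC (rep l r' yr))
    (b1 : B (rep l r z) (rep l r' yl) = true) (b2 : B (rep l r z) (rep l r' yr) = true) :
    B (rep l r z) (rep l r' w) = true := by
  by_contra hne
  rw [Bool.not_eq_true] at hne
  obtain ⟨fR, hfR⟩ : ∃ f : Fin 7 → Cls M,
      f = ![.du 0, .du 1, .du 2, .du 3, .ex i s, .par i s, z] := ⟨_, rfl⟩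
  obtain ⟨fC, hfC⟩ : ∃ f : Fin 7 → Cls M,
      f = ![.du 0, .du 1, .du 2, .par i s, yl, w, yr] := ⟨_, rfl⟩
  obtain ⟨z2, -, zlo, zhi, -, -⟩ := tree_kind hz
  obtain ⟨-, l2, -, -, llo, lhi⟩ := tree_kind hl
  obtain ⟨-, w2, -, -, wlo, whi⟩ := tree_kind hw
  obtain ⟨-, r2, -, -, rlo, rhi⟩ := tree_kind hr
  have sR : StrictMono (keyR ∘ rep l r ∘ withAnchor fR) := by
    refine strict_withAnchor _ _ _ (fun a b h => keyR_lt_of_zone h) ?_ ?_
    · subst hfR; exact keyR_lt_of_zone (by simp [rep, zoneR_du, zoneR_ex, zoneR_par, zoneR_anc])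
    · intro b
      subst hfR
      fin_cases b
      iterate 5 exact keyR_lt_of_zone (by simp [rep, zoneR_du, zoneR_ex, zoneR_par, zoneR_anc])
      exact keyR_lt_of_zone (by
          show (Cls.par i s).zoneR < z.zoneR
          simp [zoneR_du, zoneR_ex, zoneR_par] ; omega)
  have sC : StrictMono (keyC ∘ rep l r' ∘ withAnchor fC) := by
    refine strict_withAnchor _ _ _ (fun a b h => keyC_lt_of_zone h) ?_ ?_
    · subst hfC; exact keyC_lt_of_zone (by simp [rep, zoneC_du, zoneC_ex, zoneC_par, zoneC_anc])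
    · intro b
      subst hfC
      fin_cases b
      iterate 3 exact keyC_lt_of_zone (by simp [rep, zoneC_du, zoneC_ex, zoneC_par, zoneC_anc])
      · exact keyC_lt_of_zone (by
          show (Cls.par i s).zoneC < yl.zoneC
          simp [zoneC_du, zoneC_ex, zoneC_par] ; omega)
      · exact o1
      · exact o2
  obtain ⟨p, q, hpq⟩ := hB _ _ sR sC
  refine hpq (anchor_vals hg fR fC ?_ ?_ ?_ p q)
  · subst hfR
    intro b
    fin_cases b <;> simp [zoneR_du, zoneR_ex, zoneR_par, kindR_du, kindR_ex, kindR_par, roleR, z2] <;> omega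
  · subst hfC
    intro b
    fin_cases b <;> simp [zoneC_du, zoneC_ex, zoneC_par, kindC_du, kindC_ex, kindC_par, roleC, l2, w2, r2] <;> omega
  · subst hfR hfC
    have zp := mat_tree_par (y := rep l r' (.par i s)) (x := rep l r z) rfl hz
    have el := mat_ex_tree (x := rep l r (.ex i s)) (y := rep l r' yl) rfl hl
    have ew := mat_ex_tree (x := rep l r (.ex i s)) (y := rep l r' w) rfl hw
    have er := mat_ex_tree (x := rep l r (.ex i s)) (y := rep l r' yr) rfl hr
    have pl := mat_par_tree (x := rep l r (.par i s)) (y := rep l r' yl) rfl hl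
    have pw := mat_par_tree (x := rep l r (.par i s)) (y := rep l r' w) rfl hw
    have pr := mat_par_tree (x := rep l r (.par i s)) (y := rep l r' yr) rfl hr
    have fd : ∀ (t : Fin 7), mat (rep l r z) (rep l r' (.du t)) = false := fun t =>
      mat_nondu_du rfl (by simp [rep]; omega) (fun u => tree_ne_du hz u)
    have df : ∀ (p : Cls M) (t : Fin 7), p.isTree = true →
        mat (rep l r (.du t)) (rep l r' p) = false := fun p t hp =>
      mat_du_nondu rfl (by have := (tree_kind hp).2.2.2.2.1; simp [rep]; omega)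
        (fun u => tree_ne_du hp u)
    simp [rep_fst, lz, ll.1, lr.1, lw, ll.2, lr.2] at zp el ew er pl pw pr
    intro a b
    fin_cases a <;> fin_cases b <;>
      first
        | exact b1
        | exact b2
        | exact hne
        | (refine (hg _ _ (by simp [Cls.isPath])).trans ?_
           simp [core, zp, el, ew, er, pl, pw, pr, fd, df, hl, hw, hr]
           try simp [mat, rep, core])

/-- The ends of the chosen node at level `i`. -/
def IsEnd (i : ℕ) (p : Cls M) : Prop :=
  ∃ k : Fin (M + 1), k.val = i ∧ (p = .head k ∨ p = .tail k)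

/-- The tree classes following level `i` on the chosen path. -/
def IsNext (i : ℕ) (p : Cls M) : Prop :=
  IsEnd (i + 1) p ∨ (i = M ∧ p = Cls.leaf)

theorem IsEnd.tree {i : ℕ} {p : Cls M} (h : IsEnd i p) :
    p.isTree = true ∧ p.lev = i ∧ i ≤ M ∧ (p.isPath = true ∨ i = 0) := by
  obtain ⟨k, rfl, rfl | rfl⟩ := h
  all_goals
    refine ⟨rfl, rfl, by omega, ?_⟩
    by_cases k.val = 0 <;> simp_all [Cls.isPath]

theorem IsNext.tree {i : ℕ} {p : Cls M} (h : IsNext i p) :
    p.isTree = true ∧ p.lev = i + 1 ∧ p.isPath = true ∧ p.zoneR = 62 ∧ p.zoneC = 62 := by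
  rcases h with ⟨k, hk, rfl | rfl⟩ | ⟨rfl, rfl⟩ <;>
    simp_all [Cls.isTree, Cls.lev, Cls.isPath, Cls.zoneR, Cls.zoneC]

theorem elSide_rep {i : ℕ} {p : Cls M} (hp : p.lev = i) (hi : i ≤ M)
    (hpath : p.isPath = true ∨ i = 0) (a : Fin (2 ^ M)) :
    elSide (rep l a p) = side M i l := by
  simp only [elSide, rep_fst, hp, side, if_pos hi, node_rep l a hpath]

theorem head_before (k : Fin (M + 1)) {z : Cls M} (hz : IsNext k.val z) (a : Fin (2 ^ M)) :
    coord (rep l a (.head k)) ≤ coord (rep l a z) ∧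
      coord (rep l a z) ≤ coord (rep l a (.tail k)) ∧
      (Cls.head k).sub < z.sub ∧ z.sub < (Cls.tail k).sub := by
  obtain ⟨-, lz, pz, -, -⟩ := hz.tree
  have hh : (Cls.head k).isPath = true ∨ k.val = 0 := by
    by_cases k.val = 0 <;> simp_all [Cls.isPath]
  have ht : (Cls.tail k).isPath = true ∨ k.val = 0 := by
    by_cases k.val = 0 <;> simp_all [Cls.isPath]
  have e1 := node_rep l a hh
  have e2 := node_rep l a ht
  have e3 : node M k.val (rep l a z).2 = node M k.val l := node_rep l a (Or.inl pz)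
  have hb := coord_bounds (i := k.val) (rep l a z) (by rw [rep_fst, lz]; omega)
  rw [e3] at hb
  refine ⟨?_, ?_, ?_, ?_⟩
  · show node M k.val (rep l a (.head k)).2 * _ ≤ _
    rw [e1]; exact hb.1
  · show _ ≤ node M k.val (rep l a (.tail k)).2 * _ + _
    rw [e2]; exact hb.2
  all_goals
    have := k.isLt
    rcases hz with ⟨k', hk', rfl | rfl⟩ | ⟨hk', rfl⟩ <;> simp [Cls.sub] <;> omega

theorem next_one (hB : NoCopy B) (hg : Good B l r r') {i : ℕ} (hi : i ≤ M)
    (h : ∀ p q : Cls M, IsEnd i p → IsEnd i q → B (rep l r p) (rep l r' q) = true)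
    {z y : Cls M} (hz : IsNext i z) (hy : IsEnd i y) :
    B (rep l r z) (rep l r' y) = true := by
  obtain ⟨k, rfl⟩ : ∃ k : Fin (M + 1), k.val = i := ⟨⟨i, by omega⟩, rfl⟩
  have hh : IsEnd k.val (Cls.head k) := ⟨k, rfl, Or.inl rfl⟩
  have ht : IsEnd k.val (Cls.tail k) := ⟨k, rfl, Or.inr rfl⟩
  obtain ⟨ty, ly, -, py⟩ := hy.tree
  obtain ⟨tz, lz, -, zz, -⟩ := hz.tree
  obtain ⟨c1, c2, s1, s2⟩ := head_before (l := l) k hz r
  exact force_one hB hg (i := ⟨k.val, by omega⟩) (s := ⟨side M k.val l, side_lt _ _⟩)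
    rfl tz rfl ty
    ⟨rfl, elSide_rep rfl hi hh.tree.2.2.2 r⟩ ⟨rfl, elSide_rep rfl hi ht.tree.2.2.2 r⟩
    ⟨ly, elSide_rep ly hi py r'⟩ lz
    (keyR_lt_of_pos (by simp only [rep_fst, zz]; rfl) c1 s1)
    (keyR_lt_of_pos (by simp only [rep_fst, zz]; rfl) c2 s2)
    (h _ _ hh hy) (h _ _ ht hy)

theorem next_two (hB : NoCopy B) (hg : Good B l r r') {i : ℕ} (hi : i ≤ M)
    (h : ∀ p q : Cls M, IsEnd i p → IsEnd i q → B (rep l r p) (rep l r' q) = true)
    {z w : Cls M} (hz : IsNext i z) (hw : IsNext i w) :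
    B (rep l r z) (rep l r' w) = true := by
  obtain ⟨k, rfl⟩ : ∃ k : Fin (M + 1), k.val = i := ⟨⟨i, by omega⟩, rfl⟩
  have hh : IsEnd k.val (Cls.head k) := ⟨k, rfl, Or.inl rfl⟩
  have ht : IsEnd k.val (Cls.tail k) := ⟨k, rfl, Or.inr rfl⟩
  obtain ⟨tz, lz, -, -, -⟩ := hz.tree
  obtain ⟨tw, lw, -, -, zw⟩ := hw.tree
  obtain ⟨c1, c2, s1, s2⟩ := head_before (l := l) k hw r'
  exact force_two hB hg (i := ⟨k.val, by omega⟩) (s := ⟨side M k.val l, side_lt _ _⟩)
    tz rfl tw rfl
    ⟨rfl, elSide_rep rfl hi hh.tree.2.2.2 r'⟩ ⟨rfl, elSide_rep rfl hi ht.tree.2.2.2 r'⟩ lw lz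
    (keyC_lt_of_pos (by simp only [rep_fst, zw]; rfl) c1 s1)
    (keyC_lt_of_pos (by simp only [rep_fst, zw]; rfl) c2 s2)
    (next_one hB hg hi h hz hh) (next_one hB hg hi h hz ht)

theorem ends_one (hB : NoCopy B) (hg : Good B l r r') : ∀ i, i ≤ M →
    ∀ p q : Cls M, IsEnd i p → IsEnd i q → B (rep l r p) (rep l r' q) = true := by
  intro i
  induction i with
  | zero =>
    intro _ p q hp hq
    obtain ⟨tp, lp, -, -⟩ := hp.tree
    obtain ⟨tq, lq, -, -⟩ := hq.tree
    rw [hg p q (fun h => by simp [isPath_false_of_zero p tp lp] at h), mat_tree tp tq,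
      decide_eq_true_eq]
    refine Or.inl ⟨by simp [rep_fst, lp, lq], Or.inl ⟨by simp [rep_fst, lp], ?_⟩⟩
    have hlt : ∀ a : Fin (2 ^ M), a.val < 2 ^ (M + 1) := fun a => by
      have := a.isLt
      rw [pow_succ]; omega
    simp only [rep_fst, lp, parent, Nat.sub_zero]
    rw [Nat.div_eq_of_lt (hlt _), Nat.div_eq_of_lt (hlt _)]
  | succ i ih =>
    intro hi p q hp hq
    exact next_two hB hg (by omega) (ih (by omega)) (Or.inl hp) (Or.inl hq)

theorem not_good (hB : NoCopy B) (hg : Good B l r r') : False := by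
  have hn : IsNext M (Cls.leaf : Cls M) := Or.inr ⟨rfl, rfl⟩
  have hll := next_two hB hg le_rfl (ends_one hB hg M le_rfl) hn hn
  have side0 : ∀ (p : Cls M) (a : Fin (2 ^ M)), p.lev = M + 1 → elSide (rep l a p) = 0 := by
    intro p a hp
    simp [elSide, rep_fst, hp, side]
  have htop : B (rep l r .top) (rep l r' .leaf) = true := by
    rw [hg _ _ (by simp [Cls.isPath]), mat_tree rfl rfl, decide_eq_true_eq]
    exact Or.inl ⟨rfl, Or.inr ⟨rfl, rfl⟩⟩
  have hsink := force_one hB hg (x := .leaf) (z := .sink) (x'' := .top) (y := .leaf)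
    (i := ⟨M + 1, by omega⟩) (s := 0) rfl rfl rfl rfl
    ⟨rfl, side0 _ _ rfl⟩ ⟨rfl, side0 _ _ rfl⟩ ⟨rfl, side0 _ _ rfl⟩ rfl
    (keyR_lt_of_zone (by simp [rep_fst, Cls.zoneR]))
    (keyR_lt_of_zone (by simp [rep_fst, Cls.zoneR])) hll htop
  rw [hg _ _ (by simp [Cls.isPath]), mat_tree rfl rfl, decide_eq_true_eq] at hsink
  rcases hsink with ⟨e, -⟩ | ⟨-, e, -⟩ <;> simp [rep_fst, Cls.lev] at e

end Steps

theorem diff_lower {B : El M → El M → Bool} (hB : NoCopy B) :
    2 ^ M * 2 ^ M ≤ Nat.card {q : El M × El M // mat q.1 q.2 ≠ B q.1 q.2} := by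
  classical
  have bad : ∀ o : Fin (2 ^ M) × Fin (2 ^ M) × Fin (2 ^ M), ∃ p q : Cls M,
      ¬ (p.isPath = true ∧ q.isPath = true) ∧
        mat (rep o.1 o.2.1 p) (rep o.1 o.2.2 q) ≠ B (rep o.1 o.2.1 p) (rep o.1 o.2.2 q) := by
    intro o
    by_contra hne
    push Not at hne
    exact not_good hB (l := o.1) (r := o.2.1) (r' := o.2.2)
      fun p q h => (hne p q (fun hp hq => h ⟨hp, hq⟩)).symm
  choose p q hpq hne using bad
  let f : Fin (2 ^ M) × Fin (2 ^ M) × Fin (2 ^ M) →
      {x : El M × El M // mat x.1 x.2 ≠ B x.1 x.2} × Fin (2 ^ M) := fun o =>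
    (⟨(rep o.1 o.2.1 (p o), rep o.1 o.2.2 (q o)), hne o⟩,
      if (p o).isPath then o.2.1 else if (q o).isPath then o.2.2 else o.1)
  have hf : Function.Injective f := by
    rintro ⟨l, r, r'⟩ ⟨m, t, t'⟩ h
    simp only [f, Prod.mk.injEq, Subtype.mk.injEq, rep] at h
    obtain ⟨⟨⟨hp, h1⟩, hq, h2⟩, h3⟩ := h
    rw [← hp] at h1 h3
    rw [← hq] at h2 h3
    have hnot := hpq (l, r, r')
    cases hP : (p (l, r, r')).isPath <;> cases hQ : (q (l, r, r')).isPath <;>
      simp_all
  have hc := Nat.card_le_card_of_injective f hf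
  simp only [Nat.card_prod, Nat.card_fin] at hc
  exact Nat.le_of_mul_le_mul_right (by linarith) (Nat.two_pow_pos M)

end Vale.Agent.P037
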