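import Vale.Agent.P037.Copies

/-!
The core of a copy: the only possibility is the second rule at the last level.
-/

namespace Vale.Agent.P037

variable {M : ℕ}

theorem rowKind0 {p : Cls M} (h : 56 ≤ p.zoneR) (k : p.kindR = 0) :
    p = .du 0 ∨ p = .du 4 ∨ ∃ i s, p = .ex i s := by
  cases p with
  | anc j => simp [Cls.zoneR] at h; omega
  | du r => fin_cases r <;> simp_all [Cls.kindR, roleR]
  | ex i s => exact Or.inr (Or.inr ⟨i, s, rfl⟩)
  | _ => simp [Cls.kindR] at k

theorem rowKind1 {p : Cls M} (h : 56 ≤ p.zoneR) (k : p.kindR = 1) :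
    p = .du 5 ∨ ∃ i s, p = .par i s := by
  cases p with
  | anc j => simp [Cls.zoneR] at h; omega
  | du r => fin_cases r <;> simp_all [Cls.kindR, roleR]
  | par i s => exact Or.inr ⟨i, s, rfl⟩
  | _ => simp [Cls.kindR] at k

theorem rowKind2 {p : Cls M} (h : 56 ≤ p.zoneR) (k : p.kindR = 2) :
    p = .du 1 ∨ p = .du 2 ∨ p = .du 3 ∨ p = .du 6 ∨ p.isTree = true := by
  cases p with
  | anc j => simp [Cls.zoneR] at h; omega
  | du r => fin_cases r <;> simp_all [Cls.kindR, roleR]
  | ex i s => simp [Cls.kindR] at k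
  | par i s => simp [Cls.kindR] at k
  | _ => simp [Cls.isTree]

theorem colKind0 {p : Cls M} (h : 56 ≤ p.zoneC) (k : p.kindC = 0) :
    p = .du 0 ∨ ∃ i s, p = .ex i s := by
  cases p with
  | anc j => simp [Cls.zoneC] at h; omega
  | du r => fin_cases r <;> simp_all [Cls.kindC, roleC]
  | ex i s => exact Or.inr ⟨i, s, rfl⟩
  | _ => simp [Cls.kindC] at k

theorem colKind1 {p : Cls M} (h : 56 ≤ p.zoneC) (k : p.kindC = 1) :
    p = .du 1 ∨ p = .du 3 ∨ ∃ i s, p = .par i s := by
  cases p with
  | anc j => simp [Cls.zoneC] at h; omega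
  | du r => fin_cases r <;> simp_all [Cls.kindC, roleC]
  | par i s => exact Or.inr (Or.inr ⟨i, s, rfl⟩)
  | _ => simp [Cls.kindC] at k

theorem colKind2 {p : Cls M} (h : 56 ≤ p.zoneC) (k : p.kindC = 2) :
    p = .du 2 ∨ p = .du 4 ∨ p = .du 5 ∨ p = .du 6 ∨ p.isTree = true := by
  cases p with
  | anc j => simp [Cls.zoneC] at h; omega
  | du r => fin_cases r <;> simp_all [Cls.kindC, roleC]
  | ex i s => simp [Cls.kindC] at k
  | par i s => simp [Cls.kindC] at k
  | _ => simp [Cls.isTree]

theorem lev_le_of_zone62 {p : Cls M} (hp : p.isTree = true)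
    (h : p.zoneR = 62 ∨ p.zoneC = 62) : p.lev ≤ M + 1 ∧ p ≠ Cls.top ∧
      (p.lev = M + 1 → p = Cls.leaf) := by
  cases p <;> simp_all [Cls.isTree, Cls.lev, Cls.zoneR, Cls.zoneC] <;> omega

/-- The first rule never fires in `mat M`. -/
theorem rule_one {x z x'' y : El M} {i : Fin (M + 2)} {s : Fin 2}
    (hx : x.1.isTree = true) (hz : z.1.isTree = true) (hx'' : x''.1.isTree = true)
    (hy : y.1.isTree = true) (hxz : keyR x ≤ keyR z) (hzx : keyR z ≤ keyR x'')
    (lx : x.1.lev = i.val ∧ elSide x = s.val) (lx'' : x''.1.lev = i.val ∧ elSide x'' = s.val)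
    (ly : y.1.lev = i.val ∧ elSide y = s.val) (lz : z.1.lev = i.val + 1)
    (h1 : Rel x y) (h2 : Rel x'' y) (h3 : ¬ Rel z y) : False := by
  rcases h1 with ⟨-, g1⟩ | ⟨e, -⟩
  swap
  · omega
  rcases g1 with ⟨hiM, p1⟩ | ⟨hiT, ht⟩
  · rcases h2 with ⟨-, g2⟩ | ⟨e, -⟩
    swap
    · omega
    rcases g2 with ⟨hiM', p2⟩ | ⟨hiT', -⟩
    swap
    · omega
    rw [lx.1] at hiM p1
    rw [lx''.1] at p2
    have zx : x.1.zoneR = 62 := (zone62_of_lev hx (by omega)).1
    have zx'' : x''.1.zoneR = 62 := (zone62_of_lev hx'' (by omega)).1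
    have zz : z.1.zoneR = 62 := by
      have := keyR_le_zone hxz
      have := keyR_le_zone hzx
      omega
    have c1 := node_mono (M := M) i.val (keyR_le_coord hxz (by omega))
    have c2 := node_mono (M := M) i.val (keyR_le_coord hzx (by omega))
    rw [node_coord x (by omega), node_coord z (by omega)] at c1
    rw [node_coord z (by omega), node_coord x'' (by omega)] at c2
    have sx := lx.2
    have sx'' := lx''.2
    have sy := ly.2
    simp only [elSide, side, lx.1, lx''.1, ly.1, if_pos hiM] at sx sx'' sy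
    have a1 := node_eq_parent i.val x.2.val hiM
    have a2 := node_eq_parent i.val x''.2.val hiM
    have a3 := node_eq_parent i.val y.2.val hiM
    apply h3
    refine Or.inr ⟨by omega, by omega, (lev_le_of_zone62 hz (Or.inl zz)).2.1, ?_⟩
    rw [ly.1]
    omega
  · have zz : z.1.zoneR = 64 := by
      have h1 := keyR_le_zone hxz
      have h2 := (isTree_iff_zoneR.1 hz).2
      have h3 : x.1.zoneR = 64 := by rw [ht]; rfl
      omega
    have : z.1.lev = M + 1 := by
      revert zz hz
      cases z.1 <;> simp [Cls.zoneR, Cls.isTree, Cls.lev]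
    omega

/-- The second rule fires in `mat M` only inside a leaf. -/
theorem rule_two {z yl w yr : El M} {i : Fin (M + 2)}
    (hz : z.1.isTree = true) (hl : yl.1.isTree = true) (hw : w.1.isTree = true)
    (hr : yr.1.isTree = true) (hlw : keyC yl ≤ keyC w) (hwr : keyC w ≤ keyC yr)
    (ll : yl.1.lev = i.val) (lr : yr.1.lev = i.val)
    (lw : w.1.lev = i.val + 1) (lz : z.1.lev = i.val + 1)
    (h1 : Rel z yl) (h2 : Rel z yr) (h3 : ¬ Rel z w) : w = (Cls.leaf, z.2) := by
  rcases h1 with ⟨e, -⟩ | ⟨-, hb, htop, n1⟩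
  · omega
  rcases h2 with ⟨e, -⟩ | ⟨-, -, -, n2⟩
  · omega
  have zl : yl.1.zoneC = 62 := (zone62_of_lev hl (by omega)).2
  have zr : yr.1.zoneC = 62 := (zone62_of_lev hr (by omega)).2
  have zw : w.1.zoneC = 62 := by
    have := keyC_le_zone hlw
    have := keyC_le_zone hwr
    omega
  have c1 := node_mono (M := M) i.val (keyC_le_coord hlw (by omega))
  have c2 := node_mono (M := M) i.val (keyC_le_coord hwr (by omega))
  rw [node_coord yl (by omega), node_coord w (by omega)] at c1
  rw [node_coord w (by omega), node_coord yr (by omega)] at c2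
  rw [ll] at n1
  rw [lr] at n2
  have hn : node M i.val w.2.val = node M i.val z.2.val := by omega
  by_cases hiM : i.val + 1 ≤ M
  · exfalso
    apply h3
    refine Or.inl ⟨by omega, Or.inl ⟨by omega, ?_⟩⟩
    rw [lz, parent_succ, parent_succ]
    omega
  · have hi : i.val = M := by omega
    have hwl := (lev_le_of_zone62 hw (Or.inr zw)).2.2 (by omega)
    have : w.2.val = z.2.val := by simpa [node, hi] using hn
    exact Prod.ext hwl (Fin.ext this)

theorem zoneR_du (r : Fin 7) :
    (Cls.du r : Cls M).zoneR = if r.val < 4 then 56 + r.val else 61 + r.val := rfl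

theorem zoneC_du (r : Fin 7) :
    (Cls.du r : Cls M).zoneC = if r.val < 3 then 56 + r.val else 62 + r.val := rfl

theorem zoneC_par (i : Fin (M + 2)) (s : Fin 2) : (Cls.par i s : Cls M).zoneC = 61 := rfl

namespace IsCopy

variable {R C : Fin 63 → El M}

theorem val (h : IsCopy R C) (a b : Fin 7) : mat (R (role a)) (C (role b)) = core a b :=
  (h.vals _ _).trans (pat_rr a b)

theorem role_le {a b : Fin 7} (h : a ≤ b) : role a ≤ role b := by
  simp only [role, Fin.mk_le_mk]
  simpa using h

theorem determined (h : IsCopy R C) : C (role 5) = (Cls.leaf, (R (role 6)).2) := by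
  have zR : ∀ a b : Fin 7, a ≤ b → (R (role a)).1.zoneR ≤ (R (role b)).1.zoneR :=
    fun a b hab => h.zR_mono (role_le hab)
  have zC : ∀ a b : Fin 7, a ≤ b → (C (role a)).1.zoneC ≤ (C (role b)).1.zoneC :=
    fun a b hab => h.zC_mono (role_le hab)
  have kR := h.row_role
  have kC := h.col_role
  have r4 := rowKind0 (kR 4).1 (kR 4).2
  have c3 := colKind1 (kC 3).1 (kC 3).2
  have r1low : 57 ≤ (R (role 1)).1.zoneR := by
    rcases rowKind2 (kR 1).1 (kR 1).2 with e | e | e | e | e
    iterate 4 (rw [e]; simp [zoneR_du])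
    have := (isTree_iff_zoneR.1 e).1
    omega
  have c2low : 58 ≤ (C (role 2)).1.zoneC := by
    rcases colKind2 (kC 2).1 (kC 2).2 with e | e | e | e | e
    iterate 4 (rw [e]; simp [zoneC_du, zoneC_par])
    have := (isTree_iff_zoneC.1 e).1
    omega
  have v43 := h.val 4 3
  rcases r4 with e4 | e4 | ⟨i, s, e4⟩
  · have := zR 1 4 (by decide)
    rw [e4] at this
    simp [zoneR_du] at this
    omega
  · -- the second rule is played by dummies
    exfalso
    rcases c3 with e3 | e3 | ⟨j, t, e3⟩
    · have := zC 2 3 (by decide)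
      rw [e3] at this
      simp [zoneC_du, zoneC_par] at this
      omega
    swap
    · simp [mat, e4, e3, core] at v43
    have top4 : (R (role 4)).1.zoneR = 65 := by rw [e4]; rfl
    have top3 : (C (role 3)).1.zoneC = 65 := by rw [e3]; rfl
    rcases rowKind0 (kR 0).1 (kR 0).2 with e0 | e0 | ⟨i, s, e0⟩
    · have := h.val 0 3
      simp [mat, e0, e3, core] at this
    · have h01 := zR 0 1 (by decide)
      have h14 := zR 1 4 (by decide)
      rw [e0] at h01
      simp [zoneR_du] at h01
      rcases rowKind2 (kR 1).1 (kR 1).2 with e | e | e | e | e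
      iterate 4 (rw [e] at h01 h14; simp [zoneR_du, top4] at h01 h14 <;> omega)
      have := isTree_iff_zoneR.1 e
      omega
    have low0 : (R (role 0)).1.zoneR = 60 := by rw [e0]; rfl
    have tR : ∀ a : Fin 7, 1 ≤ a → a ≤ 3 → (R (role a)).1.isTree = true := by
      intro a ha ha'
      have h0 := zR 0 a (le_trans (by decide) ha)
      have h4 := zR a 4 (le_trans ha' (by decide))
      have hk : roleR a = 2 := by
        fin_cases a <;> simp [roleR] at ha ha' ⊢
      rcases rowKind2 (kR a).1 ((kR a).2.trans hk) with e | e | e | e | e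
      iterate 4 (rw [e] at h0 h4; simp [zoneR_du, low0, top4] at h0 h4 <;> omega)
      exact e
    rcases colKind0 (kC 0).1 (kC 0).2 with c0 | ⟨j, t, c0⟩
    · have := h.val 0 0
      simp [mat, e0, c0, core] at this
    have c0z : (C (role 0)).1.zoneC = 60 := by rw [c0]; rfl
    have h01 := zC 0 1 (by decide)
    have h12 := zC 1 2 (by decide)
    have h23 := zC 2 3 (by decide)
    obtain ⟨j', t', c1⟩ : ∃ j t, (C (role 1)).1 = .par j t := by
      rcases colKind1 (kC 1).1 (kC 1).2 with e | e | e
      · rw [e] at h01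
        simp [zoneC_du, zoneC_par, c0z] at h01
      · rw [e] at h12
        simp [zoneC_du, zoneC_par] at h12
        rcases colKind2 (kC 2).1 (kC 2).2 with e' | e' | e' | e' | e'
        iterate 4 (rw [e'] at h12 h23; simp [zoneC_du, zoneC_par, top3] at h12 h23 <;> omega)
        have := isTree_iff_zoneC.1 e'
        omega
      · exact e
    have c2 : (C (role 2)).1.isTree = true := by
      rcases colKind2 (kC 2).1 (kC 2).2 with e | e | e | e | e
      iterate 4 (rw [e, c1] at h12; rw [e] at h23; simp [zoneC_du, zoneC_par, top3] at h12 h23 <;> omega)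
      exact e
    have q00 := h.val 0 0
    have q01 := h.val 0 1
    have q02 := h.val 0 2
    have q10 := h.val 1 0
    have q30 := h.val 3 0
    have q21 := h.val 2 1
    simp [mat, e0, c0, core] at q00
    obtain ⟨rfl, rfl⟩ := q00
    simp [mat, e0, c1, core] at q01
    obtain ⟨rfl, rfl⟩ := q01
    rw [mat_ex_tree e0 c2] at q02
    rw [mat_tree_ex c0 (tR 1 (by decide) (by decide))] at q10
    rw [mat_tree_ex c0 (tR 3 (by decide) (by decide))] at q30
    rw [mat_tree_par c1 (tR 2 (by decide) (by decide))] at q21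
    have q12 := h.val 1 2
    have q32 := h.val 3 2
    have q22 := h.val 2 2
    rw [mat_tree (tR 1 (by decide) (by decide)) c2] at q12
    rw [mat_tree (tR 3 (by decide) (by decide)) c2] at q32
    rw [mat_tree (tR 2 (by decide) (by decide)) c2] at q22
    exact rule_one (tR 1 (by decide) (by decide)) (tR 2 (by decide) (by decide))
      (tR 3 (by decide) (by decide)) c2
      (h.rows.monotone (role_le (a := 1) (b := 2) (by decide)))
      (h.rows.monotone (role_le (a := 2) (b := 3) (by decide)))
      (of_decide_eq_true q10) (of_decide_eq_true q30) (of_decide_eq_true q02)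
      (of_decide_eq_true q21) (of_decide_eq_true q12) (of_decide_eq_true q32)
      (of_decide_eq_false q22)
  · -- the second rule is played by the tree
    rcases c3 with e3 | e3 | ⟨j, t, e3⟩
    · have := zC 2 3 (by decide)
      rw [e3] at this
      simp [zoneC_du, zoneC_par] at this
      omega
    · simp [mat, e4, e3, core] at v43
    simp [mat, e4, e3, core] at v43
    obtain ⟨rfl, rfl⟩ := v43
    have z4 : (R (role 4)).1.zoneR = 60 := by rw [e4]; rfl
    have z3 : (C (role 3)).1.zoneC = 61 := by rw [e3]; rfl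
    obtain ⟨i', s', e5⟩ : ∃ i s, (R (role 5)).1 = .par i s := by
      rcases rowKind1 (kR 5).1 (kR 5).2 with e | e
      · have := h.val 5 3
        simp [mat, e, e3, core] at this
      · exact e
    have v53 := h.val 5 3
    simp [mat, e5, e3, core] at v53
    obtain ⟨rfl, rfl⟩ := v53
    have t6 : (R (role 6)).1.isTree = true := by
      have := zR 5 6 (by decide)
      rcases rowKind2 (kR 6).1 (kR 6).2 with e | e | e | e | e
      iterate 4 (have q := h.val 6 3; simp [mat, e, e3, core] at q)
      exact e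
    have t4 : (C (role 4)).1.isTree = true := by
      rcases colKind2 (kC 4).1 (kC 4).2 with e | e | e | e | e
      iterate 4 (have q := h.val 4 4; simp [mat, e4, e, core] at q)
      exact e
    have t6' : (C (role 6)).1.isTree = true := by
      rcases colKind2 (kC 6).1 (kC 6).2 with e | e | e | e | e
      iterate 4 (have q := h.val 4 6; simp [mat, e4, e, core] at q)
      exact e
    have t5 : (C (role 5)).1.isTree = true := by
      have a1 := isTree_iff_zoneC.1 t4
      have a2 := isTree_iff_zoneC.1 t6'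
      have b1 := zC 4 5 (by decide)
      have b2 := zC 5 6 (by decide)
      exact isTree_iff_zoneC.2 ⟨by omega, by omega⟩
    have q44 := h.val 4 4
    have q46 := h.val 4 6
    have q55 := h.val 5 5
    have q63 := h.val 6 3
    rw [mat_ex_tree e4 t4] at q44
    rw [mat_ex_tree e4 t6'] at q46
    rw [mat_par_tree e5 t5] at q55
    rw [mat_tree_par e3 t6] at q63
    have q64 := h.val 6 4
    have q66 := h.val 6 6
    have q65 := h.val 6 5
    rw [mat_tree t6 t4] at q64
    rw [mat_tree t6 t6'] at q66
    rw [mat_tree t6 t5] at q65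
    exact rule_two t6 t4 t5 t6'
      (h.cols.monotone (role_le (a := 4) (b := 5) (by decide)))
      (h.cols.monotone (role_le (a := 5) (b := 6) (by decide)))
      (of_decide_eq_true q44).1 (of_decide_eq_true q46).1 (of_decide_eq_true q55)
      (of_decide_eq_true q63) (of_decide_eq_true q64) (of_decide_eq_true q66)
      (of_decide_eq_false q65)

end IsCopy

end Vale.Agent.P037
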