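import Vale.Agent.P037.Construction

/-!
Inside one block (row zone, column zone) two rows sharing two common ones force either equal rows
or equal columns.
-/

namespace Vale.Agent.P037

variable {M : ℕ}

theorem tree_rows_or_cols {x x' y y' : El M} (hz : x.1 = Cls.top ↔ x'.1 = Cls.top)
    (h1 : Rel x y) (h2 : Rel x y') (h3 : Rel x' y) (h4 : Rel x' y') :
    (∀ w, Rel x w ↔ Rel x' w) ∨ (∀ v, Rel v y ↔ Rel v y') := by
  by_cases hL : x.1.lev = x'.1.lev
  · left
    by_cases ht : x.1 = Cls.top
    · have ht' := hz.1 ht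
      intro w
      simp [Rel, ht, ht', Cls.lev]
    · have ht' : ¬ x'.1 = Cls.top := fun h => ht (hz.2 h)
      have hpar : parent M x.1.lev x.2 = parent M x.1.lev x'.2 ∧ x.1.lev ≤ M + 1 := by
        rcases h1 with ⟨e1, g1⟩ | ⟨e1, b1, -, n1⟩
        · rcases g1 with ⟨b1, p1⟩ | ⟨-, t1⟩
          · rcases h3 with ⟨e3, g3⟩ | ⟨e3, -, -, -⟩
            · rcases g3 with ⟨-, p3⟩ | ⟨-, t3⟩
              · refine ⟨?_, by omega⟩
                rw [← hL] at p3
                omega
              · exact absurd t3 ht'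
            · omega
          · exact absurd t1 ht
        · rcases h3 with ⟨e3, -⟩ | ⟨-, -, -, n3⟩
          · omega
          · refine ⟨?_, b1⟩
            rw [e1, parent_succ, parent_succ, n1, n3]
      intro w
      simp only [Rel, ht, ht', and_false, or_false, ne_eq, not_false_eq_true, true_and]
      rw [← hL, hpar.1]
      constructor <;> rintro (h | ⟨e, b, n⟩)
      · exact Or.inl h
      · refine Or.inr ⟨e, b, ?_⟩
        have := hpar.1
        rw [e, parent_succ, parent_succ] at this
        omega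
      · exact Or.inl h
      · refine Or.inr ⟨e, b, ?_⟩
        have := hpar.1
        rw [e, parent_succ, parent_succ] at this
        omega
  · right
    -- the two rows have consecutive levels, so both columns have the smaller one
    have key : y.1.lev = y'.1.lev ∧ y.1.lev ≤ M ∧
        node M y.1.lev y.2 = node M y.1.lev y'.2 := by
      rcases h1 with ⟨e1, -⟩ | ⟨e1, b1, -, n1⟩
      · rcases h3 with ⟨e3, -⟩ | ⟨e3, b3, -, n3⟩
        · omega
        · rcases h4 with ⟨e4, -⟩ | ⟨e4, -, -, n4⟩
          · rcases h2 with ⟨e2, -⟩ | ⟨e2, -, -, -⟩ <;> omega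
          · have hj : y.1.lev = y'.1.lev := by omega
            refine ⟨hj, by omega, ?_⟩
            rw [← hj] at n4
            omega
      · rcases h3 with ⟨e3, -⟩ | ⟨e3, -, -, -⟩
        · rcases h2 with ⟨e2, -⟩ | ⟨e2, -, -, n2⟩
          · rcases h4 with ⟨e4, -⟩ | ⟨e4, -, -, -⟩ <;> omega
          · have hj : y.1.lev = y'.1.lev := by omega
            refine ⟨hj, by omega, ?_⟩
            rw [← hj] at n2
            omega
        · omega
    obtain ⟨hj, hb, hn⟩ := key
    intro v
    simp only [Rel, ← hj]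
    have hp : v.1.lev = y.1.lev →
        parent M v.1.lev y.2 = parent M v.1.lev y'.2 := by
      intro e
      rw [e]
      have a1 := node_eq_parent y.1.lev y.2.val hb
      have a2 := node_eq_parent y.1.lev y'.2.val hb
      omega
    rw [hn]
    constructor <;> rintro (⟨e, g⟩ | h)
    · exact Or.inl ⟨e, by rwa [← hp e]⟩
    · exact Or.inr h
    · exact Or.inl ⟨e, by rwa [hp e]⟩
    · exact Or.inr h

theorem eq_du_of_zoneR {p : Cls M} {r : Fin 7} (h : p.zoneR = (Cls.du r : Cls M).zoneR) :
    p = .du r := by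
  cases p with
  | du t =>
    congr 1
    simp only [Cls.zoneR] at h
    split at h <;> split at h <;> exact Fin.ext (by omega)
  | _ => exfalso; revert h; simp only [Cls.zoneR]; split <;> omega

theorem eq_du_of_zoneC {p : Cls M} {r : Fin 7} (h : p.zoneC = (Cls.du r : Cls M).zoneC) :
    p = .du r := by
  cases p with
  | du t =>
    congr 1
    simp only [Cls.zoneC] at h
    split at h <;> split at h <;> exact Fin.ext (by omega)
  | _ => exfalso; revert h; simp only [Cls.zoneC]; split <;> omega

theorem mat_du_congr_row {x x' : El M} {r : Fin 7} (h : x.1 = .du r) (h' : x'.1 = .du r)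
    (y : El M) : mat x y = mat x' y := by
  obtain ⟨q, b⟩ := y
  cases q <;> simp [mat, h, h']

theorem mat_du_congr_col {y y' : El M} {r : Fin 7} (h : y.1 = .du r) (h' : y'.1 = .du r)
    (x : El M) : mat x y = mat x y' := by
  obtain ⟨p, a⟩ := x
  cases p <;> simp [mat, h, h']

/-- The five possibilities for a class outside the anchor. -/
theorem cls_cases {p : Cls M} (h : 56 ≤ p.zoneR) :
    (∃ r, p = .du r) ∨ (∃ i s, p = .ex i s) ∨ (∃ i s, p = .par i s) ∨ p.isTree = true := by
  cases p <;> simp_all [Cls.isTree, Cls.zoneR] <;> omega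

theorem cls_cases_col {p : Cls M} (h : 56 ≤ p.zoneC) :
    (∃ r, p = .du r) ∨ (∃ i s, p = .ex i s) ∨ (∃ i s, p = .par i s) ∨ p.isTree = true := by
  cases p <;> simp_all [Cls.isTree, Cls.zoneC] <;> omega

theorem same_zone_ex {p : Cls M} (h : p.zoneR = 60) : ∃ i s, p = .ex i s := by
  cases p <;> simp_all [Cls.zoneR] <;> (try split at h) <;> omega

theorem same_zone_par {p : Cls M} (h : p.zoneR = 61) : ∃ i s, p = .par i s := by
  cases p <;> simp_all [Cls.zoneR] <;> (try split at h) <;> omega

theorem same_zoneC_ex {p : Cls M} (h : p.zoneC = 60) : ∃ i s, p = .ex i s := by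
  cases p <;> simp_all [Cls.zoneC] <;> (try split at h) <;> omega

theorem same_zoneC_par {p : Cls M} (h : p.zoneC = 61) : ∃ i s, p = .par i s := by
  cases p <;> simp_all [Cls.zoneC] <;> (try split at h) <;> omega

theorem block_rect {x x' y y' : El M} (hx : 56 ≤ x.1.zoneR) (hxx : x.1.zoneR = x'.1.zoneR)
    (hy : 56 ≤ y.1.zoneC) (hyy : y.1.zoneC = y'.1.zoneC)
    (h1 : mat x y = true) (h2 : mat x y' = true) (h3 : mat x' y = true) (h4 : mat x' y' = true) :
    (∀ w : El M, w.1.zoneC = y.1.zoneC → mat x w = mat x' w) ∨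
      (∀ v : El M, v.1.zoneR = x.1.zoneR → mat v y = mat v y') := by
  rcases cls_cases hx with ⟨r, hr⟩ | ⟨i, s, hr⟩ | ⟨i, s, hr⟩ | hr
  · left
    intro w _
    exact mat_du_congr_row hr (eq_du_of_zoneR (by rw [← hxx, hr])) w
  · obtain ⟨i', s', hr'⟩ := same_zone_ex (p := x'.1) (by rw [← hxx, hr]; rfl)
    left
    have hlab : i = i' ∧ s = s' := by
      rcases cls_cases_col hy with ⟨t, ht⟩ | ⟨j, t, ht⟩ | ⟨j, t, ht⟩ | ht
      · simp [mat, hr, ht] at h1
      · simp [mat, hr, ht] at h1
        simp [mat, hr', ht] at h3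
        exact ⟨h1.1.trans h3.1.symm, h1.2.trans h3.2.symm⟩
      · simp [mat, hr, ht] at h1
        simp [mat, hr', ht] at h3
        exact ⟨h1.1.trans h3.1.symm, h1.2.trans h3.2.symm⟩
      · rw [mat_ex_tree hr ht, decide_eq_true_eq] at h1
        rw [mat_ex_tree hr' ht, decide_eq_true_eq] at h3
        exact ⟨Fin.ext (h1.1.symm.trans h3.1), Fin.ext (h1.2.symm.trans h3.2)⟩
    obtain ⟨rfl, rfl⟩ := hlab
    intro w _
    obtain ⟨q, b⟩ := w
    cases q <;> simp [mat, hr, hr']
  · obtain ⟨i', s', hr'⟩ := same_zone_par (p := x'.1) (by rw [← hxx, hr]; rfl)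
    left
    rcases cls_cases_col hy with ⟨t, ht⟩ | ⟨j, t, ht⟩ | ⟨j, t, ht⟩ | ht
    · simp [mat, hr, ht] at h1
    · simp [mat, hr, ht] at h1
      simp [mat, hr', ht] at h3
      obtain ⟨rfl, rfl⟩ := h1
      obtain ⟨rfl, rfl⟩ := h3
      intro w _
      obtain ⟨q, b⟩ := w
      cases q <;> simp [mat, hr, hr']
    · simp [mat, hr, ht] at h1
      simp [mat, hr', ht] at h3
      obtain ⟨rfl, rfl⟩ := h1
      obtain ⟨rfl, rfl⟩ := h3
      intro w _
      obtain ⟨q, b⟩ := w
      cases q <;> simp [mat, hr, hr']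
    · rw [mat_par_tree hr ht, decide_eq_true_eq] at h1
      rw [mat_par_tree hr' ht, decide_eq_true_eq] at h3
      obtain rfl : i = i' := Fin.ext (by omega)
      intro w hw
      have hw' : w.1.isTree = true := isTree_iff_zoneC.2 (hw ▸ isTree_iff_zoneC.1 ht)
      rw [mat_par_tree hr hw', mat_par_tree hr' hw']
  · have hr' : x'.1.isTree = true := isTree_iff_zoneR.2 (hxx ▸ isTree_iff_zoneR.1 hr)
    rcases cls_cases_col hy with ⟨t, ht⟩ | ⟨j, t, ht⟩ | ⟨j, t, ht⟩ | ht
    · rw [mat_nondu_du ht hx (fun r e => by simp [e, Cls.isTree] at hr)] at h1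
      simp at h1
    · obtain ⟨j', t', ht'⟩ := same_zoneC_ex (p := y'.1) (by rw [← hyy, ht]; rfl)
      right
      rw [mat_tree_ex ht hr, decide_eq_true_eq] at h1
      rw [mat_tree_ex ht' hr, decide_eq_true_eq] at h2
      obtain rfl : j = j' := Fin.ext (h1.1.symm.trans h2.1)
      obtain rfl : t = t' := Fin.ext (h1.2.symm.trans h2.2)
      intro v _
      obtain ⟨p, a⟩ := v
      cases p <;> simp [mat, ht, ht']
    · obtain ⟨j', t', ht'⟩ := same_zoneC_par (p := y'.1) (by rw [← hyy, ht]; rfl)
      right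
      rw [mat_tree_par ht hr, decide_eq_true_eq] at h1
      rw [mat_tree_par ht' hr, decide_eq_true_eq] at h2
      obtain rfl : j = j' := Fin.ext (by omega)
      intro v hv
      have hv' : v.1.isTree = true := isTree_iff_zoneR.2 (hv ▸ isTree_iff_zoneR.1 hr)
      rw [mat_tree_par ht hv', mat_tree_par ht' hv']
    · have ht' : y'.1.isTree = true := isTree_iff_zoneC.2 (hyy ▸ isTree_iff_zoneC.1 ht)
      rw [mat_tree hr ht, decide_eq_true_eq] at h1
      rw [mat_tree hr ht', decide_eq_true_eq] at h2
      rw [mat_tree hr' ht, decide_eq_true_eq] at h3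
      rw [mat_tree hr' ht', decide_eq_true_eq] at h4
      have htop : x.1 = Cls.top ↔ x'.1 = Cls.top := by
        constructor <;> intro e
        · have : x'.1.zoneR = 64 := by rw [← hxx, e]; rfl
          revert this hr'
          cases x'.1 <;> simp [Cls.zoneR, Cls.isTree]
        · have : x.1.zoneR = 64 := by rw [hxx, e]; rfl
          revert this hr
          cases x.1 <;> simp [Cls.zoneR, Cls.isTree]
      rcases tree_rows_or_cols htop h1 h2 h3 h4 with h | h
      · left
        intro w hw
        have hw' : w.1.isTree = true := isTree_iff_zoneC.2 (hw ▸ isTree_iff_zoneC.1 ht)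
        rw [mat_tree hr hw', mat_tree hr' hw']
        exact decide_eq_decide.2 (h w)
      · right
        intro v hv
        have hv' : v.1.isTree = true := isTree_iff_zoneR.2 (hv ▸ isTree_iff_zoneR.1 hr)
        rw [mat_tree hv' ht, mat_tree hv' ht']
        exact decide_eq_decide.2 (h v)

end Vale.Agent.P037
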